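import Vale.Agent.P284.H15.V.FlatO
import Vale.Agent.P284.H366.LimE

/-!
# P284 (helper15), T3: flat energy, in the situation of `AOutVStmt`
-/

open scoped Manifold ContDiff Topology Pointwise ComplexConjugate ComplexOrder Matrix InnerProductSpace
open Filter Set Metric MeasureTheory

noncomputable section

namespace Vale.Agent.P284.H15.V

open Vale.Agent.P272.K Vale.Agent.P284.H894 Vale.Agent.P284.H894.G Vale.Agent.P284.H894.V
  Vale.Agent.P284.H894.W Vale.Agent.P284.H501 Vale.Agent.P284.H501.Core Vale.Agent.P284.H619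
  Vale.Agent.P284.H402.A Vale.Agent.P284.H402.B Vale.Agent.P284.H551 Vale.Agent.P284.H494
  Vale.Agent.P284.H213.Grp Vale.Agent.P284.H913.V Vale.Agent.P284.H119.Kaz Vale.Agent.P284.H366

open Vale.Agent.P284.H287.T (Sec)
open Vale.Agent.P284.H402.T (vW lW oW bW eW pW ipW enW trW)

/-- **flat energy**: the field `flat` of `AOutV` from the inequality of `AppW` -/
theorem flatV_E {n : ℕ} {X : Type} [TopologicalSpace X] [T2Space X] [CompactSpace X]
    [ConnectedSpace X] [ChartedSpace (Cm n) X] [IsManifold 𝓘(ℂ, Cm n) ω X]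
    {w : Chart n X → Cm n → Matrix (Fin n) (Fin n) ℂ}
    {E Γ : Type} [TopologicalSpace E] [ConnectedSpace E] [Group Γ] [MulAction Γ E]
    {p : E → X} (hG : IsGalois Γ p) {C : Coc n Γ} (D : ECoc p C) (K : KM C)
    (hKw : ∀ a, K.w a = w (D.e a)) (P : PU C) {q : ℕ} {F : E → Cm q} {c : Γ → Cm q} {B : ℝ}
    (hF : HolB p w F B) (hc : Eqv F c) (hreg : ∃ y, Reg (n := n) p F y) (hlat : LatChar Γ q c)
    {U : Filter ℕ} {W : ℕ → Type}
    [∀ k, NormedAddCommGroup (W k)] [∀ k, InnerProductSpace ℝ (W k)] [∀ k, CompleteSpace (W k)]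
    (π : ∀ k, Γ →* (W k ≃ₗᵢ[ℝ] W k)) (u : ∀ k, Γ → C.I → Cm n → W k)
    (hu : ∀ k, Sec C (π k) 0 (u k))
    (h1 : ∀ k, enW P K (hfF hG D K hKw hF hc hreg) 0 (u k) (u k) = 1) {ι : Type}
    [Fintype ι] (ζ : ι → Γ) {c₀ : ℝ} {ε : ℕ → ℝ} (hε : ∀ k, 0 < ε k) (hlim : Tendsto ε U (𝓝 0))
    (h : ∀ k, ∃ (s : ℝ) (m : C.I → Cm n → ℝ), 1 ≤ s ∧ BD C m ∧
      (∀ a, ∀ z ∈ C.Ω a, 0 ≤ oW K (hfF hG D K hKw hF hc hreg) a (u k 1 a) z ∧
        0 ≤ bW K (hfF hG D K hKw hF hc hreg) a (u k 1 a) z ∧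
        oW K (hfF hG D K hKw hF hc hreg) a (u k 1 a) z +
          bW K (hfF hG D K hKw hF hc hreg) a (u k 1 a) z ≤ m a z) ∧
      ipW P K (hfF hG D K hKw hF hc hreg) 0 (u k) (u k) +
        s ^ 2 * BInt P K (fun a z => pW K (hfF hG D K hKw hF hc hreg) a (u k 1 a) z) +
        (ε k)⁻¹ * (BInt P K (fun a z => eW K (hfF hG D K hKw hF hc hreg) a (u k 1 a) z) +
          s * BInt P K m +
          ∑ i, s * enW P K (hfF hG D K hKw hF hc hreg) 0 (trW (π k) (ζ i) (u k))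
            (trW (π k) (ζ i) (u k))) ≤
        c₀ * (s * enW P K (hfF hG D K hKw hF hc hreg) 0 (u k) (u k))) :
    FlatV P K (Fc D F) c U fun k => vtf (hfF hG D K hKw hF hc hreg) fun γ a z =>
      CW.inc (W k) (u k γ a z) := by
  have hHol : H650.HolF C (Fc D F) :=
    ⟨fun γ a z hz => (Fc_hol hG D hF γ hz).1.differentiableWithinAt, (tMap hG D hF).compat⟩
  have hθJ : ∀ γ a, ∀ z ∈ C.Ω a, (hfF hG D K hKw hF hc hreg).th a z =
      (H66.S7.JF (Fc D F γ a) z)ᵀ := by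
    intro γ a z hz
    ext j i
    have h1 := (Fc_hol hG D hF γ hz).1
    rw [Matrix.transpose_apply, H66.S7.JF, Matrix.of_apply,
      INT.dz_of_holo ((differentiableAt_pi.1 h1) i), fderiv_apply h1]
    show thF D F a z j i = fderiv ℂ (Fc D F γ a) z (Pi.single j 1) i
    rw [Fc_fderiv D hc γ a z]
    rfl
  exact flatV_of_app' P K _ hHol hθJ (fun g γ a z _ => by rw [Fc, Fc, mul_smul, hc])
    (lat_co hlat) π u hu h1 ζ hε hlim h

end Vale.Agent.P284.H15.V
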