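import Vale.Agent.P284.H15.V.FlatW
import Vale.Agent.P284.H402.T.Glob

/-!
# P284 (helper15), T3: the flat inequality for Hilbert valued sections
-/

open scoped Manifold ContDiff Topology Pointwise ComplexConjugate ComplexOrder Matrix InnerProductSpace
open Filter Set Metric MeasureTheory

noncomputable section

namespace Vale.Agent.P284.H15.V

open Vale.Agent.P272.K Vale.Agent.P284.H248 Vale.Agent.P284.H894
  Vale.Agent.P284.H894.V Vale.Agent.P284.H639.V Vale.Agent.P284.H66.S7 Vale.Agent.P284.H402.A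
  Vale.Agent.P284.H650 Vale.Agent.P284.H913.V

open Vale.Agent.P284.H661.T (JI jx cp cp_smooth IsJD jx_congr jx_cont jx_clm jx_cp jx_add jx_smul
  two_le_inf)
open Vale.Agent.P284.H287.T (Sec cmp Good dH ddH)
open Vale.Agent.P284.H402.T (vW lW oW bW eW pW gM lM tM EE ee_EE Good_gM Good_lM_sq Good_tM' herm_c
  CO co_vW co_eW co_pW co_ip BI_add BI_mono BI_nn BI_cg ipW enW)

section
variable {n : ℕ} {W : Type} [NormedAddCommGroup W] [InnerProductSpace ℝ W]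

theorem cp_cmp (η : W) (u : Cm n → W) : cp η u = cmp u η := funext fun _ => real_inner_comm _ _

theorem Fr.good {u : Cm n → W} {z : Cm n} {m : ℕ} {e : Fin m → W} (h : Fr u z e) : Good u z e where
  orth := h.orth
  d1 a y := h.rep (.inr (.inl a)) y
  d2 a b y := h.rep (.inr (.inr (a, b))) y

end

section sec
variable {n q : ℕ} {Γ : Type} [Group Γ] {C : Coc n Γ} {P : PU C} {K : KM C} {θ : HF C q}
  {F : Γ → C.I → Cm n → Cm q} {φ : Cm q → ℝ} {W : Type} [NormedAddCommGroup W]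
  [InnerProductSpace ℝ W] {π : Γ →* (W ≃ₗᵢ[ℝ] W)} {u v : Γ → C.I → Cm n → W}

/-- pointwise -/
theorem GW_le (hF : HolF C F) (hθ : ∀ γ a, ∀ z ∈ C.Ω a, θ.th a z = (JF (F γ a) z)ᵀ) {s : ℕ}
    (hs : q + 1 + s = n) (hq : q < n) (j : Fin q) (c : ℂ) (hφ : ContDiff ℝ ∞ φ) {B : ℝ}
    (hB : ∀ t, |φ t| ≤ B) (hu : Sec C π 0 u) {l l' : ℝ} (hl : 0 < l) (hl' : 0 < l') {a : C.I}
    {z : Cm n} (hz : z ∈ C.Ω a) :
    |GW K hF hq j c hφ u u a z + (s.factorial : ℝ) *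
      ((c * dz j (fun t => (φ t : ℂ)) (F 1 a z)).re * vW K θ 0 a (u 1 a) (u 1 a) z)| ≤
      (s.factorial : ℝ) * (B * ‖c‖ * ((l * pW K θ a (u 1 a) z + l⁻¹ * eW K θ a (u 1 a) z +
        l' * bW K θ a (u 1 a) z + l'⁻¹ * vW K θ 0 a (u 1 a) (u 1 a) z) / 2)) := by
  have hB0 : 0 ≤ B := (abs_nonneg _).trans (hB 0)
  obtain ⟨m, e, he⟩ := exists_fr (u 1 a) z
  have hg := he.good
  have hui := hu.smooth 1 a z hz
  have hu2 : ContDiffAt ℝ 2 (u 1 a) z := hui.of_le two_le_inf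
  have hud : DifferentiableAt ℝ (u 1 a) z := hui.differentiableAt (by simp)
  have e1 : GW K hF hq j c hφ u u a z = φ (F 1 a z) *
      (∑ i, Rop K F hq j c 1 a (cmp (u 1 a) (e i)) (cmp (u 1 a) (e i)) z) -
      (s.factorial : ℝ) * ((c * dz j (fun t => (φ t : ℂ)) (F 1 a z)).re *
        vW K θ 0 a (u 1 a) (u 1 a) z) := by
    rw [GW, dW_fr _ he hz hu2 hu2, vW, Good_gM hg _ hud hud, Finset.mul_sum, Finset.mul_sum,
      Finset.mul_sum, ← Finset.sum_sub_distrib]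
    refine Finset.sum_congr rfl fun i _ => ?_
    rw [cp_cmp, Op, Lop_eq (K := K) hθ hs hq _ _ 1 hz]
    rfl
  rw [e1, sub_add_cancel, Finset.mul_sum]
  refine (Finset.abs_sum_le_sum_abs _ _).trans ?_
  have e2 : ∀ i, |φ (F 1 a z) * Rop K F hq j c 1 a (cmp (u 1 a) (e i)) (cmp (u 1 a) (e i)) z| ≤
      (s.factorial : ℝ) * (B * ‖c‖ *
      ((l * (tr1 (AA (K.w a z) (θ.th a z) 0) (cHess (cmp (u 1 a) (e i)) z) ^ 2 /
          DD (K.w a z) (θ.th a z) 0) +
        l⁻¹ * qf (EE (K.w a z) (θ.th a z)) (H402.A.pd (cmp (u 1 a) (e i)) z)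
          (H402.A.pd (cmp (u 1 a) (e i)) z) +
        l' * tr2 (AA (K.w a z) (θ.th a z) 0) (BB (K.w a z) (θ.th a z))
          (cHess (cmp (u 1 a) (e i)) z) +
        l'⁻¹ * qf (AA (K.w a z) (θ.th a z) 0) (H402.A.pd (cmp (u 1 a) (e i)) z)
          (H402.A.pd (cmp (u 1 a) (e i)) z)) / 2)) := by
    intro i
    rw [abs_mul]
    have h1 := Rop_le (K := K) hθ hs hq j c hl hl' 1 hz (herm_c hui (e i))
    rw [ee_EE]
    refine (mul_le_mul (hB _) h1 (abs_nonneg _) hB0).trans (le_of_eq ?_)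
    simp only [show dzv (cmp (u 1 a) (e i)) z = H402.A.pd (cmp (u 1 a) (e i)) z from rfl]
    ring
  refine (Finset.sum_le_sum fun i _ => e2 i).trans (le_of_eq ?_)
  rw [← Finset.mul_sum, ← Finset.mul_sum, ← Finset.sum_div, pW, lW, eW, bW, vW,
    Good_lM_sq hg _ hu2, Good_tM' hg _ _ hu2, Good_gM hg _ hud hud, Good_gM hg _ hud hud]
  simp only [Finset.sum_add_distrib, ← Finset.mul_sum, ← Finset.sum_div, dD]

theorem BI_abs (P : PU C) (K : KM C) {G H : C.I → Cm n → ℝ} (hG : CO C G) (hH : CO C H)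
    (h : ∀ a, ∀ z ∈ C.Ω a, |G a z| ≤ H a z) : |BInt P K G| ≤ BInt P K H := by
  rw [abs_le]
  constructor
  · rw [neg_le]
    have h1 : BInt P K (fun a z => (-1) * G a z) = (-1) * BInt P K G := BInt_smul P K (-1) G
    rw [← neg_one_mul, ← h1]
    refine BI_mono P K (hG.smul (-1)) hH fun a z hz => ?_
    have := (abs_le.1 (h a z hz)).1
    linarith
  · exact BI_mono P K hG hH fun a z hz => (abs_le.1 (h a z hz)).2

theorem co_dzF (hF : HolF C F) (hφ : ContDiff ℝ ∞ φ) (j : Fin q) (c : ℂ) :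
    CO C fun a z => (c * dz j (fun t => (φ t : ℂ)) (F 1 a z)).re := fun a =>
  Complex.continuous_re.comp_continuousOn (continuousOn_const.mul
    ((dzφ_cont hφ j).comp_continuousOn (hF.hol 1 a).continuousOn))

/-- **the flat inequality** for sections -/
theorem flat_leW [CompleteSpace W] (P : PU C) (hF : HolF C F)
    (hθ : ∀ γ a, ∀ z ∈ C.Ω a, θ.th a z = (JF (F γ a) z)ᵀ) (hq : q < n) {cc : Γ → Cm q}
    (heq : ∀ g γ a, ∀ z ∈ C.Ω a, F (g * γ) a z = F γ a z + cc g)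
    (hφ : ContDiff ℝ ∞ φ) (hper : ∀ g t, φ (t + cc g) = φ t) {B : ℝ} (hB : ∀ t, |φ t| ≤ B)
    (j : Fin q) (c : ℂ) (hu : Sec C π 0 u) {m : C.I → Cm n → ℝ} (hm : CO C m)
    (hbm : ∀ a, ∀ z ∈ C.Ω a, bW K θ a (u 1 a) z ≤ m a z) {l l' : ℝ} (hl : 0 < l)
    (hl' : 0 < l') :
    |BInt P K fun a z => (c * dz j (fun t => (φ t : ℂ)) (F 1 a z)).re *
      vW K θ 0 a (u 1 a) (u 1 a) z| ≤
      B * ‖c‖ * ((l * BInt P K (fun a z => pW K θ a (u 1 a) z) +
        l⁻¹ * BInt P K (fun a z => eW K θ a (u 1 a) z) + l' * BInt P K m +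
        l'⁻¹ * enW P K θ 0 u u) / 2) := by
  have hB0 : 0 ≤ B := (abs_nonneg _).trans (hB 0)
  obtain ⟨s, hs⟩ : ∃ s, q + 1 + s = n := ⟨n - (q + 1), by omega⟩
  have hG : CO C (GW K hF hq j c hφ u u) := (GW_BD hF hq j c hφ heq hper hu hu).cont
  have hV : CO C fun a z => vW K θ 0 a (u 1 a) (u 1 a) z := co_vW K θ 0 hu hu
  have hD := (co_dzF hF hφ j c).mul hV
  have hp := co_pW H279.a2Stmt K θ hu
  have he := co_eW K θ hu
  have hR := ((((hp.smul l).add (he.smul l⁻¹)).add (hm.smul l')).add (hV.smul l'⁻¹))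
  have h0 := BInt_GW (P := P) (K := K) hF hq j c hφ heq hper hu
  have hf : (0 : ℝ) < s.factorial := by exact_mod_cast s.factorial_pos
  have key := BI_abs P K (hG.add (hD.smul (s.factorial : ℝ)))
    (hR.smul ((s.factorial : ℝ) * (B * ‖c‖ / 2))) fun a z hz => by
      refine (GW_le hF hθ hs hq j c hφ hB hu hl hl' hz).trans ?_
      have h1 := mul_le_mul_of_nonneg_left (hbm a z hz) hl'.le
      have h2 : 0 ≤ (s.factorial : ℝ) * (B * ‖c‖ / 2) := by positivity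
      have h3 := mul_le_mul_of_nonneg_left (add_le_add_left (add_le_add_right h1
        (l * pW K θ a (u 1 a) z + l⁻¹ * eW K θ a (u 1 a) z))
        (l'⁻¹ * vW K θ 0 a (u 1 a) (u 1 a) z)) h2
      refine le_trans (le_of_eq ?_) h3
      ring
  rw [BI_add P K hG (hD.smul _), h0, zero_add, BInt_smul, BInt_smul, BI_add P K
    (((hp.smul l).add (he.smul l⁻¹)).add (hm.smul l')) (hV.smul l'⁻¹), BI_add P K
    ((hp.smul l).add (he.smul l⁻¹)) (hm.smul l'), BI_add P K (hp.smul l) (he.smul l⁻¹), BInt_smul,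
    BInt_smul, BInt_smul, BInt_smul, abs_mul, abs_of_pos hf, mul_assoc] at key
  refine (le_of_mul_le_mul_left key hf).trans (le_of_eq ?_)
  rw [enW]
  ring

/-- the inequality under the conclusion of `AppW` -/
theorem flat_appW [CompleteSpace W] (P : PU C) (hF : HolF C F)
    (hθ : ∀ γ a, ∀ z ∈ C.Ω a, θ.th a z = (JF (F γ a) z)ᵀ) (hq : q < n) {cc : Γ → Cm q}
    (heq : ∀ g γ a, ∀ z ∈ C.Ω a, F (g * γ) a z = F γ a z + cc g)
    (hφ : ContDiff ℝ ∞ φ) (hper : ∀ g t, φ (t + cc g) = φ t) {B : ℝ} (hB : ∀ t, |φ t| ≤ B)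
    (j : Fin q) (c : ℂ) (hu : Sec C π 0 u) {m : C.I → Cm n → ℝ} (hm : BD C m)
    (hbm : ∀ a, ∀ z ∈ C.Ω a, 0 ≤ oW K θ a (u 1 a) z ∧ 0 ≤ bW K θ a (u 1 a) z ∧
      oW K θ a (u 1 a) z + bW K θ a (u 1 a) z ≤ m a z) {s ε c₀ r : ℝ} (hs : 1 ≤ s) (hε : 0 < ε)
    (hr : 0 ≤ r)
    (h : ipW P K θ 0 u u + s ^ 2 * BInt P K (fun a z => pW K θ a (u 1 a) z) +
      ε⁻¹ * (BInt P K (fun a z => eW K θ a (u 1 a) z) + s * BInt P K m + r) ≤
        c₀ * (s * enW P K θ 0 u u)) :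
    |BInt P K fun a z => (c * dz j (fun t => (φ t : ℂ)) (F 1 a z)).re *
      vW K θ 0 a (u 1 a) (u 1 a) z| ≤
      B * ‖c‖ * ((3 * c₀ + 1) / 2 * Real.sqrt ε) * enW P K θ 0 u u := by
  have hB0 : 0 ≤ B := (abs_nonneg _).trans (hB 0)
  have hs0 : 0 < s := by linarith
  set V := enW P K θ 0 u u with hVd
  have i1 : 0 ≤ ipW P K θ 0 u u := BI_nn P K fun a z hz => mul_nonneg
    (dD_nonneg H279.a2Stmt K θ le_rfl hz) (by rw [real_inner_self_eq_norm_sq]; positivity)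
  have i2 : 0 ≤ BInt P K (fun a z => pW K θ a (u 1 a) z) := BI_nn P K fun a z hz =>
    div_nonneg (sq_nonneg _) (dD_nonneg H279.a2Stmt K θ le_rfl hz)
  have i3 : 0 ≤ BInt P K (fun a z => eW K θ a (u 1 a) z) := BI_nn P K fun a z hz =>
    (H402.T.pt_low H279.a2Stmt (w_pos K hz) le_rfl
      ((hu.smooth 1 a z hz).differentiableAt (by simp))).1
  have i4 : 0 ≤ BInt P K m := BI_nn P K fun a z hz => by
    obtain ⟨g1, g2, g3⟩ := hbm a z hz
    linarith
  set IP := BInt P K (fun a z => pW K θ a (u 1 a) z)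
  set IE := BInt P K (fun a z => eW K θ a (u 1 a) z)
  set IM := BInt P K m
  have hεi : 0 < ε⁻¹ := inv_pos.2 hε
  have hsum : 0 ≤ IE + s * IM + r := by positivity
  have k1 : s ^ 2 * IP ≤ c₀ * (s * V) := by
    have := mul_nonneg hεi.le hsum
    linarith
  have k2 : ε⁻¹ * (IE + s * IM + r) ≤ c₀ * (s * V) := by
    have : 0 ≤ s ^ 2 * IP := by positivity
    linarith
  have k3 : IE + s * IM + r ≤ ε * (c₀ * (s * V)) := by
    have := mul_le_mul_of_nonneg_left k2 hε.le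
    rwa [← mul_assoc, mul_inv_cancel₀ hε.ne', one_mul] at this
  have k4 : IE ≤ ε * (c₀ * (s * V)) := by
    have : 0 ≤ s * IM := by positivity
    linarith
  have k5 : IM ≤ ε * (c₀ * V) := by
    have : s * IM ≤ s * (ε * (c₀ * V)) := by
      calc s * IM ≤ ε * (c₀ * (s * V)) := by linarith
        _ = _ := by ring
    exact le_of_mul_le_mul_left this hs0
  have k6 : s * IP ≤ c₀ * V := by
    have : s * (s * IP) ≤ s * (c₀ * V) := by
      calc s * (s * IP) = s ^ 2 * IP := by ring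
        _ ≤ c₀ * (s * V) := k1
        _ = _ := by ring
    exact le_of_mul_le_mul_left this hs0
  have hsq : 0 < Real.sqrt ε := Real.sqrt_pos.2 hε
  have hsq2 : Real.sqrt ε * Real.sqrt ε = ε := Real.mul_self_sqrt hε.le
  have main := flat_leW (K := K) P hF hθ hq heq hφ hper hB j c hu hm.cont
    (fun a z hz => by obtain ⟨g1, g2, g3⟩ := hbm a z hz; linarith)
    (l := s * Real.sqrt ε) (l' := (Real.sqrt ε)⁻¹) (by positivity) (by positivity)
  refine main.trans ?_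
  rw [mul_assoc (B * ‖c‖)]
  refine mul_le_mul_of_nonneg_left ?_ (by positivity)
  have q1 : s * Real.sqrt ε * IP ≤ Real.sqrt ε * (c₀ * V) := by
    calc s * Real.sqrt ε * IP = Real.sqrt ε * (s * IP) := by ring
      _ ≤ _ := mul_le_mul_of_nonneg_left k6 hsq.le
  have q2 : (s * Real.sqrt ε)⁻¹ * IE ≤ Real.sqrt ε * (c₀ * V) := by
    calc (s * Real.sqrt ε)⁻¹ * IE ≤ (s * Real.sqrt ε)⁻¹ * (ε * (c₀ * (s * V))) :=
          mul_le_mul_of_nonneg_left k4 (by positivity)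
      _ = (s * Real.sqrt ε)⁻¹ * ((s * Real.sqrt ε) * (Real.sqrt ε * (c₀ * V))) := by
          congr 1
          linear_combination (-(c₀ * s * V)) * hsq2
      _ = _ := by rw [← mul_assoc, inv_mul_cancel₀ (by positivity), one_mul]
  have q3 : (Real.sqrt ε)⁻¹ * IM ≤ Real.sqrt ε * (c₀ * V) := by
    calc (Real.sqrt ε)⁻¹ * IM ≤ (Real.sqrt ε)⁻¹ * (ε * (c₀ * V)) :=
          mul_le_mul_of_nonneg_left k5 (by positivity)
      _ = (Real.sqrt ε)⁻¹ * (Real.sqrt ε * (Real.sqrt ε * (c₀ * V))) := by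
          rw [← mul_assoc (Real.sqrt ε), hsq2]
      _ = _ := by rw [← mul_assoc, inv_mul_cancel₀ hsq.ne', one_mul]
  rw [inv_inv]
  calc (s * Real.sqrt ε * IP + (s * Real.sqrt ε)⁻¹ * IE + (Real.sqrt ε)⁻¹ * IM +
        Real.sqrt ε * V) / 2 ≤ (Real.sqrt ε * (c₀ * V) + Real.sqrt ε * (c₀ * V) +
        Real.sqrt ε * (c₀ * V) + Real.sqrt ε * V) / 2 := by linarith
    _ = _ := by ring

end sec

end Vale.Agent.P284.H15.V
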