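import Vale.Agent.P284.H15.V.FlatI
import Vale.Agent.P284.H15.FL.Lim
import Vale.Agent.P284.H551.V.Rel3

/-!
# P284 (helper15), T3: asymptotically flat energy of the sequence of sections
-/

open scoped Manifold ContDiff Topology Pointwise ComplexConjugate ComplexOrder Matrix InnerProductSpace
open Filter Set Metric MeasureTheory

noncomputable section

namespace Vale.Agent.P284.H15.V

open Vale.Agent.P272.K Vale.Agent.P284.H248 Vale.Agent.P284.H894
  Vale.Agent.P284.H894.V Vale.Agent.P284.H639.V Vale.Agent.P284.H66.S7 Vale.Agent.P284.H402.A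
  Vale.Agent.P284.H650 Vale.Agent.P284.H913.V

open Vale.Agent.P284.H287.T (Sec)
open Vale.Agent.P284.H402.T (vW lW oW bW eW pW gM CO co_vW BI_add BI_nn BI_cg ipW enW trW)
open Vale.Agent.P284.H366 (dnV FlatV vtf)

section
variable {n q : ℕ} {Γ : Type} [Group Γ] {C : Coc n Γ}

theorem co_zero : CO C fun _ _ => (0 : ℝ) := fun _ => continuousOn_const

theorem BI_sum (P : PU C) (K : KM C) {ι : Type} (t : Finset ι) {G : ι → C.I → Cm n → ℝ}
    (hG : ∀ i ∈ t, CO C (G i)) : CO C (fun a z => ∑ i ∈ t, G i a z) ∧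
      BInt P K (fun a z => ∑ i ∈ t, G i a z) = ∑ i ∈ t, BInt P K (G i) := by
  classical
  induction t using Finset.induction_on with
  | empty =>
    refine ⟨by simpa using co_zero, ?_⟩
    simp [BInt]
  | insert i t hi ih =>
    obtain ⟨h1, h2⟩ := ih fun j hj => hG j (Finset.mem_insert_of_mem hj)
    have h3 := hG i (Finset.mem_insert_self i t)
    simp only [Finset.sum_insert hi]
    exact ⟨h3.add h1, by rw [BI_add P K h3 h1, h2]⟩

omit [Group Γ] in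
/-- a periodic continuous function is bounded -/
theorem per_bdd {φ : Cm q → ℝ} (hφ : Continuous φ) {cc : Γ → Cm q}
    (hper : ∀ g t, φ (t + cc g) = φ t) (hco : ∃ R : ℝ, ∀ t : Cm q, ∃ g, ‖t - cc g‖ ≤ R) :
    ∃ B, ∀ t, |φ t| ≤ B := by
  obtain ⟨R, hR⟩ := hco
  obtain ⟨B, hB⟩ := (isCompact_closedBall (0 : Cm q) R).exists_bound_of_continuousOn hφ.continuousOn
  refine ⟨B, fun t => ?_⟩
  obtain ⟨g, hg⟩ := hR t
  have h1 := hB (t - cc g) (by simpa using hg)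
  rwa [← hper g, sub_add_cancel, Real.norm_eq_abs] at h1

theorem enW_nn (P : PU C) (K : KM C) (θ : HF C q) {W : Type} [NormedAddCommGroup W]
    [InnerProductSpace ℝ W] {v : Γ → C.I → Cm n → W}
    (hv : ∀ a, ∀ z ∈ C.Ω a, DifferentiableAt ℝ (v 1 a) z) : 0 ≤ enW P K θ 0 v v :=
  BI_nn P K fun a z hz => H402.T.gM_nonneg
    (H279.a2Stmt.herm (K.w a z) (θ.th a z) 0 (w_pos K hz) le_rfl) (hv a z hz)

/-- **flat energy** of the sequence given by `AppW` -/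
theorem flatV_of_app (P : PU C) (K : KM C) (θ : HF C q) {F : Γ → C.I → Cm n → Cm q}
    (hF : HolF C F) (hθ : ∀ γ a, ∀ z ∈ C.Ω a, θ.th a z = (JF (F γ a) z)ᵀ) (hq : q < n)
    {cc : Γ → Cm q} (heq : ∀ g γ a, ∀ z ∈ C.Ω a, F (g * γ) a z = F γ a z + cc g)
    (hco : ∃ R : ℝ, ∀ t : Cm q, ∃ g, ‖t - cc g‖ ≤ R) {U : Filter ℕ} {W : ℕ → Type}
    [∀ k, NormedAddCommGroup (W k)] [∀ k, InnerProductSpace ℝ (W k)] [∀ k, CompleteSpace (W k)]
    (π : ∀ k, Γ →* (W k ≃ₗᵢ[ℝ] W k)) (u : ∀ k, Γ → C.I → Cm n → W k)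
    (hu : ∀ k, Sec C (π k) 0 (u k)) (h1 : ∀ k, enW P K θ 0 (u k) (u k) = 1) {ι : Type}
    [Fintype ι] (ζ : ι → Γ) {c₀ : ℝ} {ε : ℕ → ℝ} (hε : ∀ k, 0 < ε k) (hlim : Tendsto ε U (𝓝 0))
    (h : ∀ k, ∃ (s : ℝ) (m : C.I → Cm n → ℝ), 1 ≤ s ∧ BD C m ∧
      (∀ a, ∀ z ∈ C.Ω a, 0 ≤ oW K θ a (u k 1 a) z ∧ 0 ≤ bW K θ a (u k 1 a) z ∧
        oW K θ a (u k 1 a) z + bW K θ a (u k 1 a) z ≤ m a z) ∧
      ipW P K θ 0 (u k) (u k) + s ^ 2 * BInt P K (fun a z => pW K θ a (u k 1 a) z) +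
        (ε k)⁻¹ * (BInt P K (fun a z => eW K θ a (u k 1 a) z) + s * BInt P K m +
          ∑ i, s * enW P K θ 0 (trW (π k) (ζ i) (u k)) (trW (π k) (ζ i) (u k))) ≤
        c₀ * (s * enW P K θ 0 (u k) (u k))) :
    FlatV P K F cc U fun k => vtf θ fun γ a z => H366.CW.inc (W k) (u k γ a z) := by
  intro φ hφ hper v
  obtain ⟨B, hB⟩ := per_bdd hφ.continuous hper hco
  have hG : ∀ k, ∀ j ∈ (Finset.univ : Finset (Fin q)), CO C fun a z =>
      (2 * v j * dz j (fun t => (φ t : ℂ)) (F 1 a z)).re *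
        vW K θ 0 a (u k 1 a) (u k 1 a) z := fun k j _ =>
    (co_dzF hF hφ j (2 * v j)).mul (co_vW K θ 0 (hu k) (hu k))
  have e1 : ∀ k, (BInt P K fun a z => fderiv ℝ φ (F 1 a z) v *
      dnV K (vtf θ fun γ a z => H366.CW.inc (W k) (u k γ a z)) a z) =
      ∑ j, BInt P K fun a z => (2 * v j * dz j (fun t => (φ t : ℂ)) (F 1 a z)).re *
        vW K θ 0 a (u k 1 a) (u k 1 a) z := by
    intro k
    rw [← (BI_sum P K Finset.univ (hG k)).2]
    refine BI_cg P K fun a z hz => ?_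
    rw [H551.Rel.dnV_vW K θ (hu k) hz, ← Finset.sum_mul]
    congr 1
    rw [← H661.two_re_dz (hφ.differentiable (by simp)).differentiableAt v, Complex.re_sum]
    refine Finset.sum_congr rfl fun j _ => ?_
    congr 1
    ring
  have h2 : ∀ j : Fin q, Tendsto (fun k => BInt P K fun a z =>
      (2 * v j * dz j (fun t => (φ t : ℂ)) (F 1 a z)).re *
        vW K θ 0 a (u k 1 a) (u k 1 a) z) U (𝓝 0) := by
    intro j
    have h3 : ∀ k, |BInt P K fun a z => (2 * v j * dz j (fun t => (φ t : ℂ)) (F 1 a z)).re *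
        vW K θ 0 a (u k 1 a) (u k 1 a) z| ≤
        B * ‖2 * v j‖ * ((3 * c₀ + 1) / 2 * Real.sqrt (ε k)) := by
      intro k
      obtain ⟨s, m, hs, hm, hbm, hk⟩ := h k
      have hr : 0 ≤ ∑ i, s * enW P K θ 0 (trW (π k) (ζ i) (u k)) (trW (π k) (ζ i) (u k)) := by
        refine Finset.sum_nonneg fun i _ => mul_nonneg (by linarith) (enW_nn P K θ fun a z hz => ?_)
        have h4 : DifferentiableAt ℝ (u k 1 a) z :=
          ((hu k).smooth 1 a z hz).differentiableAt (by simp)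
        exact ((π k (ζ i)).toContinuousLinearEquiv.differentiableAt.comp z h4).sub h4
      have h5 := flat_appW (K := K) P hF hθ hq heq hφ hper hB j (2 * v j) (hu k) hm hbm hs (hε k)
        hr hk
      rwa [h1 k, mul_one] at h5
    have h4 : Tendsto (fun k => B * ‖2 * v j‖ * ((3 * c₀ + 1) / 2 * Real.sqrt (ε k))) U (𝓝 0) := by
      have h5 := (Real.continuous_sqrt.tendsto 0).comp hlim
      rw [Real.sqrt_zero] at h5
      have h6 := (h5.const_mul ((3 * c₀ + 1) / 2)).const_mul (B * ‖2 * v j‖)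
      simpa using h6
    exact squeeze_zero_norm (fun k => by rw [Real.norm_eq_abs]; exact h3 k) h4
  have h3 := tendsto_finsetSum (Finset.univ : Finset (Fin q)) fun j _ => h2 j
  simp only [Finset.sum_const_zero] at h3
  exact h3.congr fun k => (e1 k).symm

/-- the forms of degree `q + 1 > n` vanish -/
theorem dnV_big (K : KM C) {H : Type} [NormedAddCommGroup H] [InnerProductSpace ℂ H] (hq : n ≤ q)
    (Φ : Γ → C.I → Cm n → (Cm n [⋀^Fin (q + 1)]→ₗ[ℂ] H)) (a : C.I) (z : Cm n) :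
    dnV K Φ a z = 0 := by
  have h0 : Φ 1 a z = 0 := by
    ext ξ
    refine (Φ 1 a z).map_linearDependent ξ ?_
    intro hli
    have := hli.fintype_card_le_finrank
    simp [Cm] at this
    omega
  unfold dnV H366.hN
  rw [h0]
  simp

/-- **flat energy**, every `q` -/
theorem flatV_of_app' (P : PU C) (K : KM C) (θ : HF C q) {F : Γ → C.I → Cm n → Cm q}
    (hF : HolF C F) (hθ : ∀ γ a, ∀ z ∈ C.Ω a, θ.th a z = (JF (F γ a) z)ᵀ)
    {cc : Γ → Cm q} (heq : ∀ g γ a, ∀ z ∈ C.Ω a, F (g * γ) a z = F γ a z + cc g)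
    (hco : ∃ R : ℝ, ∀ t : Cm q, ∃ g, ‖t - cc g‖ ≤ R) {U : Filter ℕ} {W : ℕ → Type}
    [∀ k, NormedAddCommGroup (W k)] [∀ k, InnerProductSpace ℝ (W k)] [∀ k, CompleteSpace (W k)]
    (π : ∀ k, Γ →* (W k ≃ₗᵢ[ℝ] W k)) (u : ∀ k, Γ → C.I → Cm n → W k)
    (hu : ∀ k, Sec C (π k) 0 (u k)) (h1 : ∀ k, enW P K θ 0 (u k) (u k) = 1) {ι : Type}
    [Fintype ι] (ζ : ι → Γ) {c₀ : ℝ} {ε : ℕ → ℝ} (hε : ∀ k, 0 < ε k) (hlim : Tendsto ε U (𝓝 0))
    (h : ∀ k, ∃ (s : ℝ) (m : C.I → Cm n → ℝ), 1 ≤ s ∧ BD C m ∧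
      (∀ a, ∀ z ∈ C.Ω a, 0 ≤ oW K θ a (u k 1 a) z ∧ 0 ≤ bW K θ a (u k 1 a) z ∧
        oW K θ a (u k 1 a) z + bW K θ a (u k 1 a) z ≤ m a z) ∧
      ipW P K θ 0 (u k) (u k) + s ^ 2 * BInt P K (fun a z => pW K θ a (u k 1 a) z) +
        (ε k)⁻¹ * (BInt P K (fun a z => eW K θ a (u k 1 a) z) + s * BInt P K m +
          ∑ i, s * enW P K θ 0 (trW (π k) (ζ i) (u k)) (trW (π k) (ζ i) (u k))) ≤
        c₀ * (s * enW P K θ 0 (u k) (u k))) :
    FlatV P K F cc U fun k => vtf θ fun γ a z => H366.CW.inc (W k) (u k γ a z) := by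
  rcases lt_or_ge q n with hq | hq
  · exact flatV_of_app P K θ hF hθ hq heq hco π u hu h1 ζ hε hlim h
  · intro φ _ _ v
    have e : ∀ k, (BInt P K fun a z => fderiv ℝ φ (F 1 a z) v *
        dnV K (vtf θ fun γ a z => H366.CW.inc (W k) (u k γ a z)) a z) = 0 := by
      intro k
      have e1 := BI_cg P K (F := fun a z => fderiv ℝ φ (F 1 a z) v *
        dnV K (vtf θ fun γ a z => H366.CW.inc (W k) (u k γ a z)) a z) (G := fun _ _ => (0 : ℝ))
        fun a z _ => by rw [dnV_big K hq, mul_zero]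
      rw [e1]
      simp [BInt]
    simp only [e]
    exact tendsto_const_nhds

end

end Vale.Agent.P284.H15.V
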