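import Vale.Agent.P284.H650.Flat
import Vale.Agent.P284.H661.T.TJ

/-!
# P284 (helper15), T3: the flat inequality for Hilbert valued sections, local operators
-/

open scoped Manifold ContDiff Topology Pointwise ComplexConjugate ComplexOrder Matrix
open Filter Set Metric MeasureTheory

noncomputable section

namespace Vale.Agent.P284.H15.V

open Vale.Agent.P272.K Vale.Agent.P284.H248 Vale.Agent.P284.H894
  Vale.Agent.P284.H894.V Vale.Agent.P284.H639.V Vale.Agent.P284.H66.S7 Vale.Agent.P284.H402.A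
  Vale.Agent.P284.H650 Vale.Agent.P284.H661.T

section alg
variable {n : ℕ}

theorem MD_upd_expand (X : Fin n → Matrix (Fin n) (Fin n) ℂ) (i₀ : Fin n)
    (M : Matrix (Fin n) (Fin n) ℂ) : MD (Function.update X i₀ M) =
      ∑ r, ∑ l, M r l * MD (Function.update X i₀ (Matrix.single r l 1)) := by
  have h : M = ∑ r, ∑ l, M r l • Matrix.single r l (1 : ℂ) := by
    conv_lhs => rw [Matrix.matrix_eq_sum_single M]
    refine Finset.sum_congr rfl fun r _ => Finset.sum_congr rfl fun l _ => ?_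
    rw [Matrix.smul_single, smul_eq_mul, mul_one]
  conv_lhs => rw [h]
  rw [MD_update_sum]
  refine Finset.sum_congr rfl fun r _ => ?_
  rw [MD_update_sum]
  refine Finset.sum_congr rfl fun l _ => ?_
  rw [MD_update_smul]

theorem MD_rk1_expand (X : Fin n → Matrix (Fin n) (Fin n) ℂ) (i₀ : Fin n) (ξ η : Fin n → ℂ) :
    MD (Function.update X i₀ (rk1 ξ η)) =
      ∑ r, ξ r * MD (Function.update X i₀ (rk1 (Pi.single r 1) η)) := by
  have h : ξ = ∑ r, ξ r • (Pi.single r 1 : Fin n → ℂ) := by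
    funext i
    simp [Finset.sum_apply, Pi.single_apply]
  conv_lhs => rw [h]
  rw [rk1_sum_left, MD_update_sum]
  refine Finset.sum_congr rfl fun r _ => ?_
  rw [rk1_smul_left, MD_update_smul]

variable {U : Set (Cm n)}

theorem MD_contOn {X : Fin n → Cm n → Matrix (Fin n) (Fin n) ℂ}
    (hX : ∀ k i j, ContinuousOn (fun y => X k y i j) U) :
    ContinuousOn (fun y => MD fun k => X k y) U := by
  simp only [MD_eq]
  exact continuousOn_finsetSum _ fun s _ => continuousOn_finsetSum _ fun p _ =>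
    continuousOn_const.mul (continuousOn_finsetProd _ fun i _ => hX _ _ _)

theorem MD_upd_contOn {X : Cm n → Fin n → Matrix (Fin n) (Fin n) ℂ} {i₀ : Fin n}
    (hX : ∀ k, k ≠ i₀ → ∀ i j, ContinuousOn (fun y => X y k i j) U)
    {M : Cm n → Matrix (Fin n) (Fin n) ℂ} (hM : ∀ i j, ContinuousOn (fun y => M y i j) U) :
    ContinuousOn (fun y => MD (Function.update (X y) i₀ (M y))) U := by
  refine MD_contOn (X := fun k y => Function.update (X y) i₀ (M y) k) fun k i j => ?_
  by_cases h : k = i₀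
  · subst h
    simpa only [Function.update_self] using hM i j
  · simpa only [Function.update_of_ne h] using hX k h i j

/-- the left density is a bilinear density in the jets -/
theorem jd_L {X : Cm n → Fin n → Matrix (Fin n) (Fin n) ℂ} {i₀ : Fin n}
    (hX : ∀ k, k ≠ i₀ → ∀ i j, ContinuousOn (fun y => X y k i j) U) {κ : Cm n → ℂ}
    (hκ : ContinuousOn κ U) {v : Cm n → ℝ} (hv : ContinuousOn v U) (hv0 : ∀ z ∈ U, v z ≠ 0) :
    IsJD U fun f g z => (κ z * MD (Function.update (X z) i₀ (gg f g z))).re / v z := by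
  have hm : ∀ r l, ContinuousOn (fun z => κ z * MD (Function.update (X z) i₀ (Matrix.single r l 1)) /
      (v z : ℂ)) U := fun r l => by
    have h1 : ContinuousOn (fun z => MD (Function.update (X z) i₀ (Matrix.single r l 1))) U :=
      MD_upd_contOn (M := fun _ => Matrix.single r l 1) hX fun i j => continuousOn_const
    have h2 : ContinuousOn (fun z => (v z : ℂ)) U := Complex.continuous_ofReal.comp_continuousOn hv
    exact (hκ.mul h1).div h2 fun z hz => by exact_mod_cast hv0 z hz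
  have h0 : ∀ r l : Fin n, IsJD U fun f g z =>
      (((κ z * MD (Function.update (X z) i₀ (Matrix.single r l 1)) / (v z : ℂ)) *
        dz r (fun y => (f y : ℂ)) z) * dzb l (fun y => (g y : ℂ)) z).re := fun r l => by
    have h1 := (jc_dz (n := n) (U := U) r).mul_left (hm r l)
    exact IsJD.re_mul h1 (jc_dzb l)
  have h : IsJD U fun f g z => ∑ r : Fin n, ∑ l : Fin n,
      (((κ z * MD (Function.update (X z) i₀ (Matrix.single r l 1)) / (v z : ℂ)) *
        dz r (fun y => (f y : ℂ)) z) * dzb l (fun y => (g y : ℂ)) z).re :=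
    IsJD.sum _ fun r _ => IsJD.sum _ fun l _ => h0 r l
  refine h.congr fun f g z _ => ?_
  rw [MD_upd_expand, Finset.mul_sum, Complex.re_sum, Finset.sum_div]
  refine Finset.sum_congr rfl fun r _ => ?_
  rw [Finset.mul_sum, Complex.re_sum, Finset.sum_div]
  refine Finset.sum_congr rfl fun l _ => ?_
  rw [← Complex.div_ofReal_re]
  congr 1
  simp only [gg, rk1, dzv, dzbv, Matrix.of_apply]
  ring

/-- the right density is a bilinear density in the jets -/
theorem jd_R {X : Cm n → Fin n → Matrix (Fin n) (Fin n) ℂ} {i₀ i₁ : Fin n} (hne : i₁ ≠ i₀)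
    (hX : ∀ k, k ≠ i₀ → ∀ i j, ContinuousOn (fun y => X y k i j) U) {η : Cm n → Fin n → ℂ}
    (hη : ∀ i, ContinuousOn (fun y => η y i) U) {v : Cm n → ℝ} (hv : ContinuousOn v U)
    (hv0 : ∀ z ∈ U, v z ≠ 0) :
    IsJD U fun f g z => (MD (Function.update (Function.update (X z) i₁ (rk1 (dzv f z) (η z))) i₀
      (cHess g z))).re / v z := by
  have hm : ∀ r k l, ContinuousOn (fun z => MD (Function.update (Function.update (X z) i₀
      (Matrix.single k l 1)) i₁ (rk1 (Pi.single r 1) (η z))) / (v z : ℂ)) U := fun r k l => by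
    refine (MD_upd_contOn (X := fun z => Function.update (X z) i₀ (Matrix.single k l 1))
      (fun m hm i j => ?_) fun i j => ?_).div
      (Complex.continuous_ofReal.comp_continuousOn hv) fun z hz => by exact_mod_cast hv0 z hz
    · by_cases h : m = i₀
      · subst h
        simp only [Function.update_self]
        exact continuousOn_const
      · simpa only [Function.update_of_ne h] using hX m h i j
    · simp only [rk1, Matrix.of_apply]
      exact continuousOn_const.mul (hη j)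
  have h : IsJD U fun f g z => ∑ k : Fin n, ∑ l : Fin n, ∑ r : Fin n,
      (((MD (Function.update (Function.update (X z) i₀ (Matrix.single k l 1)) i₁
        (rk1 (Pi.single r 1) (η z))) / (v z : ℂ)) *
        dz r (fun y => (f y : ℂ)) z) * cHess g z k l).re :=
    IsJD.sum _ fun k _ => IsJD.sum _ fun l _ => IsJD.sum _ fun r _ =>
      IsJD.re_mul ((jc_dz r).mul_left (hm r k l)) (jc_cHess k l)
  refine h.congr fun f g z _ => ?_
  rw [MD_upd_expand, Complex.re_sum, Finset.sum_div]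
  refine Finset.sum_congr rfl fun k _ => ?_
  rw [Complex.re_sum, Finset.sum_div]
  refine Finset.sum_congr rfl fun l _ => ?_
  rw [Function.update_comm hne, MD_rk1_expand, Finset.mul_sum, Complex.re_sum, Finset.sum_div]
  refine Finset.sum_congr rfl fun r _ => ?_
  rw [← Complex.div_ofReal_re]
  congr 1
  simp only [dzv]
  ring

end alg

section ops
variable {n q : ℕ} {Γ : Type} [Group Γ] {C : Coc n Γ} (K : KM C) (F : Γ → C.I → Cm n → Cm q)

/-- the left density as an operator -/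
def Lop (hq : q < n) (c : Γ → C.I → Cm n → ℂ) (γ : Γ) (a : C.I) (f g : Cm n → ℝ) (z : Cm n) : ℝ :=
  (c γ a z * MD (Function.update (Xb (K.w a z) (JF (F γ a) z)) ⟨q, hq⟩ (gg f g z))).re /
    vol (K.w a) z

/-- the right density as an operator -/
def Rop (hq : q < n) (j : Fin q) (c : ℂ) (γ : Γ) (a : C.I) (f g : Cm n → ℝ) (z : Cm n) : ℝ :=
  (MD (Function.update (Xj (K.w a z) (JF (F γ a) z) j c (dzv f z)) ⟨q, hq⟩ (cHess g z))).re /
    vol (K.w a) z

theorem LD_Lop (hq : q < n) (c : Γ → C.I → Cm n → ℂ) (u v : Γ → C.I → Cm n → ℝ) (γ : Γ) (a : C.I)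
    (z : Cm n) : LD K F hq c u v γ a z = Lop K F hq c γ a (u γ a) (v γ a) z := rfl

theorem RD_Rop (hq : q < n) (j : Fin q) (c : ℂ) (u v : Γ → C.I → Cm n → ℝ) (γ : Γ) (a : C.I)
    (z : Cm n) : RD K F hq j c u v γ a z = Rop K F hq j c γ a (u γ a) (v γ a) z := rfl

variable {K F}

theorem Xb_cont (hF : HolF C F) (γ : Γ) (a : C.I) (k i j : Fin n) :
    ContinuousOn (fun z => Xb (K.w a z) (JF (F γ a) z) k i j) (C.Ω a) := fun z hz =>
  ((cf_Xb K hF k).smooth γ a z hz i j).continuousAt.continuousWithinAt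

theorem vol_contOn (K : KM C) (a : C.I) : ContinuousOn (vol (K.w a)) (C.Ω a) := fun z hz =>
  (smooth_vol (K.ku a) hz).continuousAt.continuousWithinAt

theorem jd_Lop (hF : HolF C F) (hq : q < n) {c : Γ → C.I → Cm n → ℂ} (γ : Γ) (a : C.I)
    (hc : ContinuousOn (c γ a) (C.Ω a)) : IsJD (C.Ω a) (Lop K F hq c γ a) :=
  jd_L (X := fun z => Xb (K.w a z) (JF (F γ a) z)) (fun k _ i j => Xb_cont hF γ a k i j) hc
    (vol_contOn K a) fun z hz => (vol_pos K hz).ne'

theorem jd_Rop (hF : HolF C F) (hq : q < n) (j : Fin q) (c : ℂ) (γ : Γ) (a : C.I) :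
    IsJD (C.Ω a) (Rop K F hq j c γ a) := by
  have hne : (Fin.castLE hq.le j : Fin n) ≠ ⟨q, hq⟩ := by
    intro h
    have : (j : ℕ) = q := by simpa using congrArg Fin.val h
    exact absurd j.2 (by omega)
  have h := jd_R (U := C.Ω a) (X := fun z => Xb (K.w a z) (JF (F γ a) z)) (i₀ := ⟨q, hq⟩)
    (i₁ := Fin.castLE hq.le j) hne (fun k _ i j => Xb_cont hF γ a k i j)
    (η := fun z l => c * conj (JF (F γ a) z j l)) (fun i z hz =>
      ((hF.f01 j c).smooth γ a z hz i).continuousAt.continuousWithinAt)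
    (vol_contOn K a) fun z hz => (vol_pos K hz).ne'
  refine h.congr fun f g z _ => ?_
  rw [Rop, Xj_eq]

/-- the left density -/
theorem Lop_eq {θ : HF C q} (hθ : ∀ γ a, ∀ z ∈ C.Ω a, θ.th a z = (JF (F γ a) z)ᵀ) {s : ℕ}
    (hs : q + 1 + s = n) (hq : q < n) (c : Γ → C.I → Cm n → ℂ) (f : Cm n → ℝ) (γ : Γ) {a : C.I}
    {z : Cm n} (hz : z ∈ C.Ω a) : Lop K F hq c γ a f f z =
      (s.factorial : ℝ) * ((c γ a z).re * qf (AA (K.w a z) (θ.th a z) 0) (dzv f z) (dzv f z)) :=
  LD_eq (K := K) (f := fun _ _ => f) hθ hs hq c γ hz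

/-- the right density -/
theorem Rop_le {θ : HF C q} (hθ : ∀ γ a, ∀ z ∈ C.Ω a, θ.th a z = (JF (F γ a) z)ᵀ) {s : ℕ}
    (hs : q + 1 + s = n) (hq : q < n) (j : Fin q) (c : ℂ) {f : Cm n → ℝ} {l l' : ℝ} (hl : 0 < l)
    (hl' : 0 < l') (γ : Γ) {a : C.I} {z : Cm n} (hz : z ∈ C.Ω a)
    (hx : (cHess f z).IsHermitian) :
    |Rop K F hq j c γ a f f z| ≤ (s.factorial : ℝ) * (‖c‖ *
      ((l * (tr1 (AA (K.w a z) (θ.th a z) 0) (cHess f z) ^ 2 / DD (K.w a z) (θ.th a z) 0) +
        l⁻¹ * ee (K.w a z) (θ.th a z) (dzv f z) +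
        l' * tr2 (AA (K.w a z) (θ.th a z) 0) (BB (K.w a z) (θ.th a z)) (cHess f z) +
        l'⁻¹ * qf (AA (K.w a z) (θ.th a z) 0) (dzv f z) (dzv f z)) / 2)) := by
  have hw := w_pos K hz
  have hv := vol_pos K hz
  set ξ := dzv f z with hξ
  set x := cHess f z with hxd
  have t1 := pt1 hw (θ.th a z) hx ξ j hl
  have t2 := pt2 hw (θ.th a z) hx ξ j hl'
  rw [Rop, MD_Xj hw _ hs hq, det_vol K hz, ← hθ γ a z hz]
  set v := vol (K.w a) z
  set A1 := (RR (K.w a z) (θ.th a z) *ᵥ ξ) j * (AA (K.w a z) (θ.th a z) 0 * x).trace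
  set A2 := (RR (K.w a z) (θ.th a z) *ᵥ (x *ᵥ (AA (K.w a z) (θ.th a z) 0 *ᵥ ξ))) j
  have e4 : c * ((s.factorial : ℂ) * (v : ℂ) * (A1 - A2)) =
      (((s.factorial : ℝ) * v : ℝ) : ℂ) * (c * (A1 - A2)) := by
    push_cast; ring
  rw [e4, Complex.re_ofReal_mul]
  have e5 : (s.factorial : ℝ) * v * (c * (A1 - A2)).re / v =
      (s.factorial : ℝ) * (c * (A1 - A2)).re := by
    field_simp
  rw [e5, abs_mul, abs_of_nonneg (by positivity : (0 : ℝ) ≤ (s.factorial : ℝ))]
  refine mul_le_mul_of_nonneg_left ?_ (by positivity)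
  refine (Complex.abs_re_le_norm _).trans ?_
  rw [norm_mul]
  refine mul_le_mul_of_nonneg_left ?_ (norm_nonneg c)
  refine (norm_sub_le _ _).trans ?_
  linarith

end ops

end Vale.Agent.P284.H15.V
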