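import Vale.Agent.P284.H661.T.TJ
import Vale.Agent.P284.H287.T.Calc

/-!
# P284 (helper15), T3: integral identities for Hilbert valued functions from the scalar ones
-/

open scoped Manifold ContDiff Topology Pointwise ComplexConjugate ComplexOrder InnerProductSpace
open Filter Set Metric MeasureTheory

noncomputable section

namespace Vale.Agent.P284.H15.V

open Vale.Agent.P272.K Vale.Agent.P284.H248 Vale.Agent.P284.H894 Vale.Agent.P284.H894.G
  Vale.Agent.P284.H894.V Vale.Agent.P284.H661.T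

theorem countable_of_orth {E : Type*} [NormedAddCommGroup E] [InnerProductSpace ℝ E]
    [TopologicalSpace.SeparableSpace E] {w : Set E} (hw : Orthonormal ℝ ((↑) : w → E)) :
    w.Countable := by
  refine Set.PairwiseDisjoint.countable_of_isOpen (s := fun x : E => ball x (1 / 2)) ?_
    (fun _ _ => isOpen_ball) fun x _ => ⟨x, mem_ball_self (by norm_num)⟩
  intro x hx y hy hxy
  refine ball_disjoint_ball ?_
  have h1 : ‖x‖ = 1 := hw.1 ⟨x, hx⟩
  have h2 : ‖y‖ = 1 := hw.1 ⟨y, hy⟩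
  have h3 : ⟪x, y⟫_ℝ = 0 := hw.2 (i := ⟨x, hx⟩) (j := ⟨y, hy⟩) fun h => hxy (congrArg Subtype.val h)
  have h4 : ‖x - y‖ ^ 2 = 2 := by
    rw [@norm_sub_sq_real, h1, h2, h3]; norm_num
  rw [dist_eq_norm]
  have h5 := norm_nonneg (x - y)
  nlinarith

variable {n : ℕ} {W : Type} [NormedAddCommGroup W] [InnerProductSpace ℝ W] [CompleteSpace W]
  {D : (Cm n → ℝ) → (Cm n → ℝ) → Cm n → ℝ} {U V Q : Set (Cm n)} {u v : Cm n → W}

/-- scalar identities give the identity for Hilbert valued functions -/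
theorem int_zero_W {b : JI n → JI n → Cm n → ℝ} (hc : ∀ μ ν, ContinuousOn (b μ ν) U)
    (hb : ∀ (f h : Cm n → ℝ) (z : Cm n), z ∈ U → ContDiffAt ℝ 2 f z → ContDiffAt ℝ 2 h z →
      D f h z = ∑ μ, ∑ ν, b μ ν z * (jx μ f z * jx ν h z))
    (hU : IsOpen U) (hV : MeasurableSet V) (hQ : IsCompact Q) (hVQ : V ⊆ Q) (hQU : Q ⊆ U)
    (hu : ∀ z ∈ U, ContDiffAt ℝ ∞ u z) (hv : ∀ z ∈ U, ContDiffAt ℝ ∞ v z)
    (hz : ∀ η : W, ∫ z in V, D (cp η u) (cp η v) z = 0) :
    ∫ z in V, ∑ μ, ∑ ν, b μ ν z * ⟪jx μ u z, jx ν v z⟫_ℝ = 0 := by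
  have hVU : V ⊆ U := hVQ.trans hQU
  have huc : ContinuousOn u U := fun z hz => (hu z hz).continuousAt.continuousWithinAt
  have hvc : ContinuousOn v U := fun z hz => (hv z hz).continuousAt.continuousWithinAt
  set S : Submodule ℝ W := (Submodule.span ℝ (u '' U ∪ v '' U)).topologicalClosure with hSd
  have hSc : IsClosed (S : Set W) := Submodule.isClosed_topologicalClosure _
  have : CompleteSpace S := hSc.completeSpace_coe
  have hsep : TopologicalSpace.IsSeparable (S : Set W) := by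
    have h1 : TopologicalSpace.IsSeparable (u '' U ∪ v '' U) :=
      (huc.isSeparable_image (.of_separableSpace U)).union
        (hvc.isSeparable_image (.of_separableSpace U))
    have h2 := h1.span (R := ℝ)
    exact h2.closure
  have : TopologicalSpace.SeparableSpace S := hsep.separableSpace
  obtain ⟨w, e, he⟩ := exists_hilbertBasis ℝ S
  have hwc : Countable w := by
    have h1 : Orthonormal ℝ ((↑) : w → S) := by rw [← he]; exact e.orthonormal
    exact (countable_of_orth h1).to_subtype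
  have huS : ∀ z ∈ U, u z ∈ S := fun z hz =>
    Submodule.le_topologicalClosure _ (Submodule.subset_span (Or.inl ⟨z, hz, rfl⟩))
  have hvS : ∀ z ∈ U, v z ∈ S := fun z hz =>
    Submodule.le_topologicalClosure _ (Submodule.subset_span (Or.inr ⟨z, hz, rfl⟩))
  set u₀ : Cm n → S := fun z => S.orthogonalProjectionOnto (u z) with hu₀
  set v₀ : Cm n → S := fun z => S.orthogonalProjectionOnto (v z) with hv₀
  have hu₀s : ∀ z ∈ U, ContDiffAt ℝ ∞ u₀ z := fun z hz =>
    S.orthogonalProjectionOnto.contDiff.contDiffAt.comp z (hu z hz)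
  have hv₀s : ∀ z ∈ U, ContDiffAt ℝ ∞ v₀ z := fun z hz =>
    S.orthogonalProjectionOnto.contDiff.contDiffAt.comp z (hv z hz)
  have hu2 : ∀ z ∈ U, ContDiffAt ℝ 2 u₀ z := fun z hz => (hu₀s z hz).of_le two_le_inf
  have hv2 : ∀ z ∈ U, ContDiffAt ℝ 2 v₀ z := fun z hz => (hv₀s z hz).of_le two_le_inf
  have hcu : ∀ z ∈ U, ((u₀ z : S) : W) = u z := fun z hz =>
    Submodule.starProjection_eq_self_iff.2 (huS z hz)
  have hcv : ∀ z ∈ U, ((v₀ z : S) : W) = v z := fun z hz =>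
    Submodule.starProjection_eq_self_iff.2 (hvS z hz)
  have hju : ∀ μ, ∀ z ∈ U, ((jx μ u₀ z : S) : W) = jx μ u z := by
    intro μ z hz
    have h1 := jx_clm μ S.subtypeL (hu2 z hz)
    rw [Submodule.subtypeL_apply] at h1
    rw [← h1]
    refine jx_congr μ ?_
    filter_upwards [hU.mem_nhds hz] with y hy
    exact hcu y hy
  have hjv : ∀ μ, ∀ z ∈ U, ((jx μ v₀ z : S) : W) = jx μ v z := by
    intro μ z hz
    have h1 := jx_clm μ S.subtypeL (hv2 z hz)
    rw [Submodule.subtypeL_apply] at h1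
    rw [← h1]
    refine jx_congr μ ?_
    filter_upwards [hU.mem_nhds hz] with y hy
    exact hcv y hy
  have key : ∀ (i : w), ∀ z ∈ U, D (cp (e i) u₀) (cp (e i) v₀) z =
      D (cp ((e i : S) : W) u) (cp ((e i : S) : W) v) z := by
    intro i z hz
    rw [hb _ _ z hz (cp_smooth _ (hu2 z hz)) (cp_smooth _ (hv2 z hz)),
      hb _ _ z hz (cp_smooth _ ((hu z hz).of_le two_le_inf))
        (cp_smooth _ ((hv z hz).of_le two_le_inf))]
    refine Finset.sum_congr rfl fun μ _ => Finset.sum_congr rfl fun ν _ => ?_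
    rw [jx_cp _ _ (hu2 z hz), jx_cp _ _ (hv2 z hz), jx_cp _ _ ((hu z hz).of_le two_le_inf),
      jx_cp _ _ ((hv z hz).of_le two_le_inf), ← hju μ z hz, ← hjv ν z hz]
    rfl
  have h1 := hasSum_int_sm (Q := Q) (V := V) e ⟨b, hc, hb⟩ hu₀s hv₀s (φ := fun _ => 1)
    continuousOn_const hQ hQU hV hVU (fun z hz hz' => absurd (hVQ hz) hz')
  have h2 : (fun i => ∫ z in V, (1 : ℝ) * D (cp (e i) u₀) (cp (e i) v₀) z) = fun _ => 0 := by
    funext i
    rw [← hz ((e i : S) : W)]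
    refine setIntegral_congr_fun hV fun z hz => ?_
    simp only [one_mul]
    exact key i z (hVU hz)
  rw [h2] at h1
  have h3 := h1.unique hasSum_zero
  rw [← h3]
  refine setIntegral_congr_fun hV fun z hz => ?_
  simp only [one_mul]
  rw [sm_eq e hb (hVU hz) (hu2 z (hVU hz)) (hv2 z (hVU hz))]
  refine Finset.sum_congr rfl fun μ _ => Finset.sum_congr rfl fun ν _ => ?_
  rw [← hju μ z (hVU hz), ← hjv ν z (hVU hz)]
  rfl

/-- an orthonormal family whose span contains the jets of `u` -/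
structure Fr (u : Cm n → W) (z : Cm n) {m : ℕ} (e : Fin m → W) : Prop where
  orth : Orthonormal ℝ e
  rep : ∀ (μ : JI n) (y : W), ⟪jx μ u z, y⟫_ℝ = ∑ i, ⟪jx μ u z, e i⟫_ℝ * ⟪y, e i⟫_ℝ

omit [CompleteSpace W] in
theorem exists_fr (u : Cm n → W) (z : Cm n) : ∃ (m : ℕ) (e : Fin m → W), Fr u z e := by
  obtain ⟨m, e, he, h⟩ := Vale.Agent.P284.H287.T.exists_fam fun μ : JI n => jx μ u z
  exact ⟨m, e, he, h⟩

omit [CompleteSpace W] in
theorem Fr.sum {m : ℕ} {e : Fin m → W} {z : Cm n} (h : Fr u z e) {b : JI n → JI n → Cm n → ℝ}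
    (hb : ∀ (f h : Cm n → ℝ) (z : Cm n), z ∈ U → ContDiffAt ℝ 2 f z → ContDiffAt ℝ 2 h z →
      D f h z = ∑ μ, ∑ ν, b μ ν z * (jx μ f z * jx ν h z)) (hz : z ∈ U)
    (hu : ContDiffAt ℝ 2 u z) (hv : ContDiffAt ℝ 2 v z) :
    ∑ i, D (cp (e i) u) (cp (e i) v) z = ∑ μ, ∑ ν, b μ ν z * ⟪jx μ u z, jx ν v z⟫_ℝ := by
  have h1 : ∀ i, D (cp (e i) u) (cp (e i) v) z =
      ∑ μ, ∑ ν, b μ ν z * (⟪jx μ u z, e i⟫_ℝ * ⟪jx ν v z, e i⟫_ℝ) := by
    intro i
    rw [hb _ _ z hz (cp_smooth _ hu) (cp_smooth _ hv)]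
    simp only [jx_cp _ _ hu, jx_cp _ _ hv]
    refine Finset.sum_congr rfl fun μ _ => Finset.sum_congr rfl fun ν _ => ?_
    rw [real_inner_comm (e i), real_inner_comm (e i)]
  simp only [h1]
  rw [Finset.sum_comm]
  refine Finset.sum_congr rfl fun μ _ => ?_
  rw [Finset.sum_comm]
  refine Finset.sum_congr rfl fun ν _ => ?_
  rw [← Finset.mul_sum, ← h.rep μ]

end Vale.Agent.P284.H15.V
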