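import Vale.Agent.P284.H15.V.FlatOp
import Vale.Agent.P284.H15.V.Sep
import Vale.Agent.P284.H287.T.Defs

/-!
# P284 (helper15), T3: the flat identity for Hilbert valued sections
-/

open scoped Manifold ContDiff Topology Pointwise ComplexConjugate ComplexOrder Matrix InnerProductSpace
open Filter Set Metric MeasureTheory

noncomputable section

namespace Vale.Agent.P284.H15.V

open Vale.Agent.P272.K Vale.Agent.P284.H248 Vale.Agent.P284.H894
  Vale.Agent.P284.H894.V Vale.Agent.P284.H639.V Vale.Agent.P284.H66.S7 Vale.Agent.P284.H402.A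
  Vale.Agent.P284.H650 Vale.Agent.P284.H913.V

open Vale.Agent.P284.H661.T (JI jx cp cp_smooth IsJD jx_congr jx_cont jx_clm jx_cp jx_add jx_smul
  two_le_inf)
open Vale.Agent.P284.H287.T (Sec)

/-! ### Hilbert valued densities -/

section dW
variable {n : ℕ} {W : Type} [NormedAddCommGroup W] [InnerProductSpace ℝ W] {U : Set (Cm n)}
  {D : (Cm n → ℝ) → (Cm n → ℝ) → Cm n → ℝ} {u v v' : Cm n → W} {z : Cm n}

/-- the coefficients -/
def jb (h : IsJD U D) : JI n → JI n → Cm n → ℝ := h.choose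

theorem jb_cont (h : IsJD U D) (μ ν : JI n) : ContinuousOn (jb h μ ν) U := h.choose_spec.1 μ ν

theorem jb_eq (h : IsJD U D) : ∀ (f g : Cm n → ℝ) (z : Cm n), z ∈ U → ContDiffAt ℝ 2 f z →
    ContDiffAt ℝ 2 g z → D f g z = ∑ μ, ∑ ν, jb h μ ν z * (jx μ f z * jx ν g z) :=
  h.choose_spec.2

/-- the density for Hilbert valued functions -/
def dW (h : IsJD U D) (u v : Cm n → W) (z : Cm n) : ℝ :=
  ∑ μ, ∑ ν, jb h μ ν z * ⟪jx μ u z, jx ν v z⟫_ℝ

theorem dW_cont (h : IsJD U D) (hu : ∀ z ∈ U, ContDiffAt ℝ ∞ u z)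
    (hv : ∀ z ∈ U, ContDiffAt ℝ ∞ v z) : ContinuousOn (dW h u v) U := by
  unfold dW
  exact continuousOn_finsetSum _ fun μ _ => continuousOn_finsetSum _ fun ν _ =>
    (jb_cont h μ ν).mul ((jx_cont μ hu).inner (𝕜 := ℝ) (jx_cont ν hv))

theorem dW_fr (h : IsJD U D) {m : ℕ} {e : Fin m → W} (he : Fr u z e) (hz : z ∈ U)
    (hu : ContDiffAt ℝ 2 u z) (hv : ContDiffAt ℝ 2 v z) :
    dW h u v z = ∑ i, D (cp (e i) u) (cp (e i) v) z := (he.sum (jb_eq h) hz hu hv).symm

theorem jx_zero (μ : JI n) : jx μ (fun _ : Cm n => (0 : W)) z = 0 := by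
  have h := jx_clm (z := z) (F := fun _ : Cm n => (0 : W)) μ (0 : W →L[ℝ] W) contDiffAt_const
  simpa using h

theorem dW_zero_right (h : IsJD U D) (hv : v =ᶠ[𝓝 z] fun _ => 0) : dW h u v z = 0 := by
  unfold dW
  refine Finset.sum_eq_zero fun μ _ => Finset.sum_eq_zero fun ν _ => ?_
  rw [jx_congr ν hv, jx_zero, inner_zero_right, mul_zero]

theorem dW_congr_right (h : IsJD U D) (hv : v =ᶠ[𝓝 z] v') : dW h u v z = dW h u v' z := by
  unfold dW
  refine Finset.sum_congr rfl fun μ _ => Finset.sum_congr rfl fun ν _ => ?_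
  rw [jx_congr ν hv]

theorem jx_sum {κ : Type*} (μ : JI n) (s : Finset κ) {w : κ → Cm n → W}
    (hw : ∀ i ∈ s, ContDiffAt ℝ 2 (w i) z) :
    jx μ (fun y => ∑ i ∈ s, w i y) z = ∑ i ∈ s, jx μ (w i) z := by
  classical
  induction s using Finset.induction_on with
  | empty => simpa using jx_zero μ
  | insert i s hi ih =>
    simp only [Finset.sum_insert hi]
    rw [jx_add μ (hw i (Finset.mem_insert_self i s))
      (ContDiffAt.sum fun j hj => hw j (Finset.mem_insert_of_mem hj)),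
      ih fun j hj => hw j (Finset.mem_insert_of_mem hj)]

theorem dW_sum_right {κ : Type*} (h : IsJD U D) (s : Finset κ) {w : κ → Cm n → W}
    (hw : ∀ i ∈ s, ContDiffAt ℝ 2 (w i) z) :
    dW h u (fun y => ∑ i ∈ s, w i y) z = ∑ i ∈ s, dW h u (w i) z := by
  unfold dW
  rw [Finset.sum_comm' (t' := Finset.univ) (s' := fun _ => s) (by simp)]
  refine Finset.sum_congr rfl fun μ _ => ?_
  rw [Finset.sum_comm' (t' := Finset.univ) (s' := fun _ => s) (by simp)]
  refine Finset.sum_congr rfl fun ν _ => ?_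
  rw [jx_sum ν s hw, inner_sum, Finset.mul_sum]

end dW

/-! ### The combined operator -/

section op
variable {n q : ℕ} {Γ : Type} [Group Γ] {C : Coc n Γ} {K : KM C} {F : Γ → C.I → Cm n → Cm q}
  {φ : Cm q → ℝ}

variable (K F φ) in
/-- the flat operator -/
def Op (hq : q < n) (j : Fin q) (c : ℂ) (γ : Γ) (a : C.I) (f g : Cm n → ℝ) (z : Cm n) : ℝ :=
  φ (F γ a z) * Rop K F hq j c γ a f g z -
    Lop K F hq (fun γ a z => c * dz j (fun t => (φ t : ℂ)) (F γ a z)) γ a f g z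

theorem dzφ_cont (hφ : ContDiff ℝ ∞ φ) (j : Fin q) : Continuous fun t => dz j (fun t => (φ t : ℂ)) t := by
  have h1 : Continuous fun t => fderiv ℝ (fun t => (φ t : ℂ)) t := by
    have h2 : ContDiff ℝ ∞ (fun t => (φ t : ℂ)) := Complex.ofRealCLM.contDiff.comp hφ
    exact h2.continuous_fderiv (by simp)
  unfold dz
  exact ((h1.clm_apply continuous_const).sub (continuous_const.mul
    (h1.clm_apply continuous_const))).div_const _

theorem jd_Op (hF : HolF C F) (hq : q < n) (j : Fin q) (c : ℂ) (hφ : ContDiff ℝ ∞ φ) (γ : Γ)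
    (a : C.I) : IsJD (C.Ω a) (Op K F φ hq j c γ a) := by
  have hFc : ContinuousOn (F γ a) (C.Ω a) := (hF.hol γ a).continuousOn
  have h1 := (jd_Rop (K := K) hF hq j c γ a).mul_left (hφ.continuous.comp_continuousOn hFc)
  have h2 := (jd_Lop (K := K) hF hq (c := fun γ a z => c * dz j (fun t => (φ t : ℂ)) (F γ a z)) γ a
    (continuousOn_const.mul ((dzφ_cont hφ j).comp_continuousOn hFc))).mul_left
      (g := fun _ => (-1 : ℝ)) continuousOn_const
  refine (h1.add h2).congr fun f g z _ => ?_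
  simp only [Op, Function.comp_apply]
  ring

/-- the forms -/
def Xf (K : KM C) (F : Γ → C.I → Cm n → Cm q) (j : Fin q) (c : ℂ) (f : Γ → C.I → Cm n → ℝ)
    (i : Fin n) (γ : Γ) (a : C.I) (z : Cm n) : Matrix (Fin n) (Fin n) ℂ :=
  Xj (K.w a z) (JF (F γ a) z) j c (dzv (f γ a) z) i

theorem Op_eq (hF : HolF C F) (hq : q < n) (j : Fin q) (c : ℂ) (hφ : ContDiff ℝ ∞ φ)
    (f g : Γ → C.I → Cm n → ℝ) (γ : Γ) {a : C.I} {z : Cm n} (hz : z ∈ C.Ω a) :
    Op K F φ hq j c γ a (f γ a) (g γ a) z =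
      IA K (Xf K F j c f) ⟨q, hq⟩ (fun γ a z => φ (F γ a z)) g γ a z +
      IB K (Xf K F j c f) ⟨q, hq⟩ (fun γ a z => φ (F γ a z)) g γ a z := by
  have h1 : LD K F hq (fun γ a z => c * dz j (fun t => (φ t : ℂ)) (F γ a z)) f g γ a z =
      -IB K (Xf K F j c f) ⟨q, hq⟩ (fun γ a z => φ (F γ a z)) g γ a z := by
    have h2 : IB K (Xf K F j c f) ⟨q, hq⟩ (fun γ a z => φ (F γ a z)) g γ a z =
      (MD (Function.update (Xj (K.w a z) (JF (F γ a) z) j c (dzv (f γ a) z)) ⟨q, hq⟩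
        (gg (fun y => φ (F γ a y)) (g γ a) z))).re / vol (K.w a) z := rfl
    rw [h2, LD, gg, gg, MD_exchange (K.w a z) (JF (F γ a) z) j hq c
      (fun p => dz p (fun t => (φ t : ℂ)) (F γ a z)), hF.dzv_comp hφ γ hz, Complex.neg_re, neg_div]
  rw [LD_Lop] at h1
  rw [Op, h1]
  have h3 : IA K (Xf K F j c f) ⟨q, hq⟩ (fun γ a z => φ (F γ a z)) g γ a z =
      φ (F γ a z) * Rop K F hq j c γ a (f γ a) (g γ a) z := rfl
  rw [h3]
  ring

theorem Op_change (hF : HolF C F) (hq : q < n) (j : Fin q) (c : ℂ) (hφ : ContDiff ℝ ∞ φ)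
    {f g : Γ → C.I → Cm n → ℝ} (hf : SmF C f) (hg : SmF C g) (γ : Γ) {a b : C.I} {z : Cm n}
    (hz : z ∈ C.O a b) : Op K F φ hq j c γ a (f γ a) (g γ a) z =
      Op K F φ hq j c (γ * C.κ a b z) b (f (γ * C.κ a b z) b) (g (γ * C.κ a b z) b) (C.T a b z) := by
  have hX : ∀ k, k ≠ (⟨q, hq⟩ : Fin n) → SF C (Xf K F j c f k) := fun k _ =>
    (cf_Xj K hF hf j c k).toSF
  rw [Op_eq hF hq j c hφ f g γ (O_sub_Ω C hz), Op_eq hF hq j c hφ f g _ (T_mem_Ω C hz),
    (IA_smF (K := K) hX (hF.comp hφ) hg).compat γ a b z hz,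
    (IB_smF (K := K) hX (hF.comp hφ) hg).compat γ a b z hz]

theorem Op_per (hF : HolF C F) (hq : q < n) (j : Fin q) (c : ℂ) {cc : Γ → Cm q}
    (heq : ∀ g γ a, ∀ z ∈ C.Ω a, F (g * γ) a z = F γ a z + cc g)
    (hper : ∀ g t, φ (t + cc g) = φ t) (g γ : Γ) {a : C.I} {z : Cm n} (hz : z ∈ C.Ω a)
    (f h : Cm n → ℝ) : Op K F φ hq j c (g * γ) a f h z = Op K F φ hq j c γ a f h z := by
  have e1 : JF (F (g * γ) a) z = JF (F γ a) z := by
    refine JF_add_const (hF.holV γ hz) (c := cc g) ?_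
    filter_upwards [(isOpen_Ω C a).mem_nhds hz] with y hy
    exact heq g γ a y hy
  have e2 : ∀ t, dz j (fun t => (φ t : ℂ)) (t + cc g) = dz j (fun t => (φ t : ℂ)) t := by
    intro t
    have h4 : (fun t => ((φ (t + cc g) : ℝ) : ℂ)) = fun t => (φ t : ℂ) := funext fun t => by
      rw [hper g t]
    have h5 : fderiv ℝ (fun t => (φ t : ℂ)) (t + cc g) = fderiv ℝ (fun t => (φ t : ℂ)) t := by
      conv_rhs => rw [← h4]
      rw [fderiv_comp_add_right (f := fun t => (φ t : ℂ))]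
    unfold dz
    rw [h5]
  simp only [Op, Rop, Lop]
  rw [e1, heq g γ a z hz, hper, e2]

theorem Op_congr (hq : q < n) (j : Fin q) (c : ℂ) (γ : Γ) {a : C.I} {z : Cm n}
    {f f' g g' : Cm n → ℝ} (hf : f =ᶠ[𝓝 z] f') (hg : g =ᶠ[𝓝 z] g') :
    Op K F φ hq j c γ a f g z = Op K F φ hq j c γ a f' g' z := by
  simp only [Op, Rop, Lop]
  rw [gg_congr hf hg, dzv_congr hf, C2.cHess_congr hg]

end op

/-! ### Sections -/

section sec
variable {n q : ℕ} {Γ : Type} [Group Γ] {C : Coc n Γ} {P : PU C} {K : KM C}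
  {F : Γ → C.I → Cm n → Cm q} {φ : Cm q → ℝ} {W : Type} [NormedAddCommGroup W]
  [InnerProductSpace ℝ W] {π : Γ →* (W ≃ₗᵢ[ℝ] W)} {u v : Γ → C.I → Cm n → W}

/-- component -/
def sc (η : W) (u : Γ → C.I → Cm n → W) (γ : Γ) (a : C.I) : Cm n → ℝ := cp η (u γ a)

theorem sc_smF (hu : Sec C π 0 u) (η : W) : SmF C (sc η u) where
  smooth γ a z hz := cp_smooth η (hu.smooth γ a z hz)
  compat γ a b z hz := by
    simp only [sc, cp]
    rw [hu.compat γ a b z hz]

/-- the partition of unity, cut off outside the charts -/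
def chi (P : PU C) (d a : C.I) : Cm n → ℝ := (C.Ω a).indicator (P.χ d a)

theorem chi_mem (P : PU C) (d : C.I) {a : C.I} {z : Cm n} (hz : z ∈ C.Ω a) :
    chi P d a z = P.χ d a z := indicator_of_mem hz _

theorem chi_ev1 (P : PU C) (d : C.I) {a : C.I} {z : Cm n} (hz : z ∈ C.Ω a) :
    chi P d a =ᶠ[𝓝 z] P.χ d a := by
  filter_upwards [(isOpen_Ω C a).mem_nhds hz] with y hy
  exact chi_mem P d hy

theorem chi_smooth (P : PU C) (d : C.I) {a : C.I} {z : Cm n} (hz : z ∈ C.Ω a) :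
    ContDiffAt ℝ ∞ (chi P d a) z := (P.smooth d a z hz).congr_of_eventuallyEq (chi_ev1 P d hz)

theorem chi_out (P : PU C) (d : C.I) {z : Cm n} (hz : z ∉ P.K d) :
    chi P d d =ᶠ[𝓝 z] fun _ => 0 := by
  filter_upwards [(P.compactK d).isClosed.isOpen_compl.mem_nhds hz] with y hy
  by_cases h : y ∈ C.Ω d
  · rw [chi_mem P d h]
    by_contra h0
    have h2 := P.supp d d y h h0
    rw [C.T_self d y h2.1] at h2
    exact hy h2.2
  · exact indicator_of_notMem h _

/-- product with the cut-off function -/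
def cuW (P : PU C) (d : C.I) (u : Γ → C.I → Cm n → W) (γ : Γ) (a : C.I) (z : Cm n) : W :=
  chi P d a z • u γ a z

theorem cuW_sec (P : PU C) (d : C.I) (hu : Sec C π 0 u) : Sec C π 0 (cuW P d u) where
  smooth γ a z hz := (chi_smooth P d hz).smul (hu.smooth γ a z hz)
  compat γ a b z hz := by
    simp only [cuW]
    rw [chi_mem P d (O_sub_Ω C hz), chi_mem P d (T_mem_Ω C hz), P.compat d a b z hz,
      hu.compat γ a b z hz]
  equi g γ a z hz := by
    simp only [cuW]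
    rw [hu.equi g γ a z hz]
    simp

theorem cuW_sum (P : PU C) (u : Γ → C.I → Cm n → W) (γ : Γ) {a : C.I} {z : Cm n}
    (hz : z ∈ C.Ω a) : u γ a =ᶠ[𝓝 z] fun y => ∑ d, cuW P d u γ a y := by
  filter_upwards [(isOpen_Ω C a).mem_nhds hz] with y hy
  simp only [cuW, chi_mem P _ hy]
  rw [← Finset.sum_smul, P.sum_one a y hy, one_smul]

theorem cuW_zero (P : PU C) (d : C.I) (u : Γ → C.I → Cm n → W) (γ : Γ) {a : C.I} {z : Cm n}
    (hz : z ∈ C.Ω a) (hn : ¬ (z ∈ C.O a d ∧ C.T a d z ∈ P.K d)) :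
    cuW P d u γ a =ᶠ[𝓝 z] fun _ => 0 := by
  filter_upwards [H66.chi_ev P d hz hn, (isOpen_Ω C a).mem_nhds hz] with y hy hy'
  simp only [cuW]
  rw [chi_mem P d hy', hy, zero_smul]

/-- frames on two charts -/
theorem fr_pair (u : Cm n → W) (z : Cm n) (u' : Cm n → W) (z' : Cm n) (A : W ≃ₗᵢ[ℝ] W) :
    ∃ (m : ℕ) (e : Fin m → W), Fr u z e ∧ Fr u' z' (fun i => A.symm (e i)) := by
  obtain ⟨m, e, he, h⟩ := H287.T.exists_fam
    (Sum.elim (fun μ : JI n => jx μ u z) (fun μ : JI n => A (jx μ u' z')))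
  refine ⟨m, e, ⟨he, fun μ y => h (Sum.inl μ) y⟩, ⟨?_, fun μ y => ?_⟩⟩
  · exact he.comp_linearIsometry A.symm.toLinearIsometry
  · have h1 := h (Sum.inr μ) (A y)
    simp only [Sum.elim_inr, LinearIsometryEquiv.inner_map_map] at h1
    rw [h1]
    refine Finset.sum_congr rfl fun i _ => ?_
    have h2 : ∀ x, ⟪A x, e i⟫_ℝ = ⟪x, A.symm (e i)⟫_ℝ := fun x => by
      rw [← A.inner_map_map x, A.apply_symm_apply]
    rw [h2, h2]

/-- the density on the base -/
def GW (K : KM C) (hF : HolF C F) (hq : q < n) (j : Fin q) (c : ℂ) (hφ : ContDiff ℝ ∞ φ)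
    (u v : Γ → C.I → Cm n → W) (a : C.I) (z : Cm n) : ℝ :=
  dW (jd_Op (K := K) hF hq j c hφ 1 a) (u 1 a) (v 1 a) z

theorem GW_BD (hF : HolF C F) (hq : q < n) (j : Fin q) (c : ℂ) (hφ : ContDiff ℝ ∞ φ) {cc : Γ → Cm q} (heq : ∀ g γ a, ∀ z ∈ C.Ω a, F (g * γ) a z = F γ a z + cc g)
    (hper : ∀ g t, φ (t + cc g) = φ t) (hu : Sec C π 0 u) (hv : Sec C π 0 v) :
    BD C (GW K hF hq j c hφ u v) where
  cont a := dW_cont _ (hu.smooth 1 a) (hv.smooth 1 a)
  compat a b z hz _ _ := by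
    have hza := O_sub_Ω C hz
    have hzb := T_mem_Ω C hz
    set κ := C.κ a b z with hκ
    obtain ⟨m, e, h1, h2⟩ := fr_pair (u 1 a) z (u 1 b) (C.T a b z) (π κ)
    rw [GW, GW, dW_fr _ h1 hza ((hu.smooth 1 a z hza).of_le two_le_inf)
      ((hv.smooth 1 a z hza).of_le two_le_inf), dW_fr _ h2 hzb
      ((hu.smooth 1 b _ hzb).of_le two_le_inf) ((hv.smooth 1 b _ hzb).of_le two_le_inf)]
    refine Finset.sum_congr rfl fun i _ => ?_
    have h3 := Op_change (K := K) hF hq j c hφ (sc_smF hu (e i)) (sc_smF hv (e i)) 1 hz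
    rw [one_mul, ← hκ] at h3
    refine h3.trans ?_
    have h4 := Op_per (K := K) (φ := φ) hF hq j c heq hper κ 1 hzb (sc (e i) u κ b) (sc (e i) v κ b)
    rw [mul_one] at h4
    rw [h4]
    have h5 : ∀ {s : Γ → C.I → Cm n → W}, Sec C π 0 s →
        sc (e i) s κ b =ᶠ[𝓝 (C.T a b z)] cp ((π κ).symm (e i)) (s 1 b) := by
      intro s hs
      filter_upwards [(isOpen_Ω C b).mem_nhds hzb] with y hy
      have h6 := hs.equi κ 1 b y hy
      rw [mul_one] at h6
      simp only [sc, cp]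
      rw [h6, Pi.zero_apply, add_zero, ← (π κ).inner_map_map ((π κ).symm (e i)),
        (π κ).apply_symm_apply]
    exact Op_congr hq j c 1 (h5 hu) (h5 hv)

/-- the scalar identity on a piece -/
theorem loc0 (hF : HolF C F) (hq : q < n) (j : Fin q) (c : ℂ) (hφ : ContDiff ℝ ∞ φ) (d : C.I) {f : Γ → C.I → Cm n → ℝ} (hf : SmF C f) :
    ∫ z in C.V d, Op K F φ hq j c 1 d (f 1 d) (fun y => chi P d d y * f 1 d y) z *
      vol (K.w d) z = 0 := by
  have hg : SmF C (fun γ a z => chi P d a z * f γ a z) :=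
    { smooth := fun γ a z hz => (chi_smooth P d hz).mul (hf.smooth γ a z hz)
      compat := fun γ a b z hz => by
        rw [chi_mem P d (O_sub_Ω C hz), chi_mem P d (T_mem_Ω C hz), P.compat d a b z hz,
          hf.compat γ a b z hz] }
  have h1 := piece_zero (K := K) (X := Xf K F j c f) (i₀ := ⟨q, hq⟩) P d 1
    (fun k _ => cf_Xj K hF hf j c k) (hF.comp hφ) hg fun z hz => Or.inr (by
      filter_upwards [chi_out P d hz] with y hy
      rw [hy, zero_mul])
  rw [← h1]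
  refine setIntegral_congr_fun measurableSet_ball fun z hz => ?_
  rw [← Op_eq hF hq j c hφ f (fun γ a z => chi P d a z * f γ a z) 1 (V_sub_Ω C d hz)]

/-- the identity on a piece -/
theorem loc1 [CompleteSpace W] (hF : HolF C F) (hq : q < n) (j : Fin q) (c : ℂ)
    (hφ : ContDiff ℝ ∞ φ) (d : C.I) (hu : Sec C π 0 u) :
    ∫ z in C.V d, GW K hF hq j c hφ u (cuW P d u) d z * vol (K.w d) z = 0 := by
  set h := jd_Op (K := K) hF hq j c hφ 1 d with hh
  have hc := cuW_sec P d hu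
  have h1 := int_zero_W (W := W) (U := C.Ω d) (V := C.V d) (Q := closedBall (C.c d) (3 * C.r d))
    (D := fun f g z => vol (K.w d) z * Op K F φ hq j c 1 d f g z)
    (b := fun μ ν z => vol (K.w d) z * jb h μ ν z) (u := u 1 d) (v := cuW P d u 1 d)
    (fun μ ν => (vol_contOn K d).mul (jb_cont h μ ν))
    (fun f g z hz hf hg => by
      rw [jb_eq h f g z hz hf hg, Finset.mul_sum]
      refine Finset.sum_congr rfl fun μ _ => ?_
      rw [Finset.mul_sum]
      exact Finset.sum_congr rfl fun ν _ => by ring)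
    (isOpen_Ω C d) measurableSet_ball (isCompact_closedBall _ _) (H66.V_sub_closed C d)
    (H66.closed_sub_Ω C d) (hu.smooth 1 d) (hc.smooth 1 d) (fun η => by
      have h2 := loc0 (K := K) (P := P) hF hq j c hφ d (sc_smF hu η)
      rw [← h2]
      refine setIntegral_congr_fun measurableSet_ball fun z _ => ?_
      rw [mul_comm]
      congr 2
      funext y
      simp only [sc, cp, cuW]
      rw [real_inner_smul_right])
  rw [← h1]
  refine setIntegral_congr_fun measurableSet_ball fun z _ => ?_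
  simp only [GW, dW]
  rw [Finset.sum_mul]
  refine Finset.sum_congr rfl fun μ _ => ?_
  rw [Finset.sum_mul]
  refine Finset.sum_congr rfl fun ν _ => ?_
  ring

/-- **the flat identity** for sections -/
theorem BInt_GW [CompleteSpace W] (hF : HolF C F) (hq : q < n) (j : Fin q) (c : ℂ)
    (hφ : ContDiff ℝ ∞ φ) {cc : Γ → Cm q}
    (heq : ∀ g γ a, ∀ z ∈ C.Ω a, F (g * γ) a z = F γ a z + cc g)
    (hper : ∀ g t, φ (t + cc g) = φ t) (hu : Sec C π 0 u) :
    BInt P K (GW K hF hq j c hφ u u) = 0 := by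
  have h1 : ∀ a, ∀ z ∈ C.V a, GW K hF hq j c hφ u u a z =
      ∑ d, GW K hF hq j c hφ u (cuW P d u) a z := by
    intro a z hz
    have hz' := V_sub_Ω C a hz
    simp only [GW]
    rw [dW_congr_right _ (cuW_sum P u 1 hz'), dW_sum_right]
    exact fun d _ => ((cuW_sec P d hu).smooth 1 a z hz').of_le two_le_inf
  rw [BInt_congr P K h1, BInt_sum P K Finset.univ fun d _ =>
    GW_BD hF hq j c hφ heq hper hu (cuW_sec P d hu)]
  refine Finset.sum_eq_zero fun d _ => ?_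
  rw [(GW_BD hF hq j c hφ heq hper hu (cuW_sec P d hu)).piece P K d]
  · exact loc1 hF hq j c hφ d hu
  · intro a z hz hne
    by_contra hn
    have hn' : ¬ (z ∈ C.O a d ∧ C.T a d z ∈ P.K d) := fun h => hn ⟨h.1, P.K_sub d h.2⟩
    exact hne (dW_zero_right _ (cuW_zero P d u 1 (V_sub_Ω C a hz) hn'))

end sec

end Vale.Agent.P284.H15.V
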