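import Vale.Agent.P284.H15.V.PushG
import Vale.Agent.P284.H15.FL.NSc
import Vale.Agent.P284.H366.V.Spec

/-!
# P284 (helper15), T3: push-forward of the limit of Hilbert valued forms
-/

open scoped Manifold ContDiff Topology Pointwise ComplexConjugate ComplexOrder Matrix ENNReal
open Filter Set Metric MeasureTheory

noncomputable section

set_option linter.unusedSectionVars false

namespace Vale.Agent.P284.H15.V

open Vale.Agent.P272.K Vale.Agent.P284.H248 Vale.Agent.P284.H894 Vale.Agent.P284.H894.G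
  Vale.Agent.P284.H894.V Vale.Agent.P284.H402.A Vale.Agent.P284.H402.B Vale.Agent.P284.H366
  Vale.Agent.P284.H639.V Vale.Agent.P284.H913.V Vale.Agent.P284.H650 Vale.Agent.P284.H15.FL

/-- helper366's norm is the norm `nS` -/
theorem hN_eq {n p : ℕ} {H : Type} [NormedAddCommGroup H] [InnerProductSpace ℂ H]
    (M : Matrix (Fin n) (Fin n) ℂ) (S : Cm n [⋀^Fin p]→ₗ[ℂ] H) :
    hN M (fun J => S (eJ J)) = (pr M fun J J' => inner ℂ (S (eJ J)) (S (eJ J'))).re := by
  have hp : ((p.factorial : ℂ)) ≠ 0 := by exact_mod_cast p.factorial_ne_zero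
  have h1 : ∀ (σ : Equiv.Perm (Fin p)) (J : Fin p → Fin n),
      S (eJ (J ∘ σ)) = (Equiv.Perm.sign σ : ℤ) • S (eJ J) := by
    intro σ J
    have h2 := S.map_perm (eJ J) σ
    have h3 : (eJ J : Fin p → Cm n) ∘ σ = eJ (J ∘ σ) := rfl
    rw [h3] at h2
    rw [h2]
    rfl
  have h2 : ∑ J : Fin p → Fin n, ∑ K : Fin p → Fin n,
      (M.submatrix J K).det * inner ℂ (S (eJ J)) (S (eJ K)) =
      (p.factorial : ℂ) * ∑ J : Fin p → Fin n, ∑ K : Fin p → Fin n,
        (∏ i, M (J i) (K i)) * inner ℂ (S (eJ J)) (S (eJ K)) := by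
    have h3 : ∀ J K : Fin p → Fin n, (M.submatrix J K).det * inner ℂ (S (eJ J)) (S (eJ K)) =
        ∑ σ : Equiv.Perm (Fin p), (∏ i, M ((J ∘ σ) i) (K i)) *
          inner ℂ (S (eJ (J ∘ σ))) (S (eJ K)) := by
      intro J K
      rw [Matrix.det_apply, Finset.sum_mul]
      refine Finset.sum_congr rfl fun σ _ => ?_
      rw [h1 σ J]
      simp only [Matrix.submatrix_apply, Function.comp_apply]
      rcases Int.units_eq_one_or (Equiv.Perm.sign σ) with h | h
      · rw [h]; simp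
      · rw [h]; simp
    simp only [h3]
    have h4 : ∀ σ : Equiv.Perm (Fin p), ∑ J : Fin p → Fin n, ∑ K : Fin p → Fin n,
        (∏ i, M ((J ∘ σ) i) (K i)) * inner ℂ (S (eJ (J ∘ σ))) (S (eJ K)) =
        ∑ J : Fin p → Fin n, ∑ K : Fin p → Fin n,
          (∏ i, M (J i) (K i)) * inner ℂ (S (eJ J)) (S (eJ K)) := by
      intro σ
      exact (Equiv.sum_comp (Equiv.arrowCongr σ.symm (Equiv.refl (Fin n))) fun J =>
        ∑ K : Fin p → Fin n, (∏ i, M (J i) (K i)) * inner ℂ (S (eJ J)) (S (eJ K)))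
    have h5 : ∑ J : Fin p → Fin n, ∑ K : Fin p → Fin n, ∑ σ : Equiv.Perm (Fin p),
        (∏ i, M ((J ∘ σ) i) (K i)) * inner ℂ (S (eJ (J ∘ σ))) (S (eJ K)) =
        ∑ σ : Equiv.Perm (Fin p), ∑ J : Fin p → Fin n, ∑ K : Fin p → Fin n,
        (∏ i, M ((J ∘ σ) i) (K i)) * inner ℂ (S (eJ (J ∘ σ))) (S (eJ K)) := by
      rw [Finset.sum_comm]
      conv_lhs => enter [2, K]; rw [Finset.sum_comm]
      rw [Finset.sum_comm]
      refine Finset.sum_congr rfl fun σ _ => ?_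
      rw [Finset.sum_comm]
    rw [h5, Finset.sum_congr rfl fun σ _ => h4 σ, Finset.sum_const, Finset.card_univ,
      Fintype.card_perm, Fintype.card_fin, nsmul_eq_mul]
  rw [hN, h2, pr]
  congr 1
  field_simp

section
variable {n q p : ℕ} {Γ : Type} [Group Γ] {C : Coc n Γ} {P : PU C} {K : KM C}
  {H : ℕ → Type} [∀ k, NormedAddCommGroup (H k)] [∀ k, InnerProductSpace ℂ (H k)]
  [∀ k, CompleteSpace (H k)] {U : Ultrafilter ℕ} {π : ∀ k, Γ →* (H k ≃ₗᵢ[ℂ] H k)}
  {Φ : ∀ k, Γ → C.I → Cm n → (Cm n [⋀^Fin p]→ₗ[ℂ] H k)} (D : MD C)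

theorem dnV_eq (K : KM C) (k : ℕ) (a : C.I) (z : Cm n) : dnV K (Φ k) a z =
    (pr ((K.w a z)⁻¹) fun J J' => inner ℂ (Φ k 1 a z (eJ J)) (Φ k 1 a z (eJ J'))).re :=
  hN_eq _ _

/-- the density of the limit -/
def rhoV (K : KM C) (D : MD C) (U : Ultrafilter ℕ)
    (Φ : ∀ k, Γ → C.I → Cm n → (Cm n [⋀^Fin p]→ₗ[ℂ] H k)) (a : C.I) (z : Cm n) : ℝ :=
  nS ((K.w a z)⁻¹) (LimV D U Φ 1 a z)

theorem Q_closed_sub' (a : C.I) : closedBall (C.c a) (D.ρ a) ⊆ C.Ω a :=
  closedBall_subset_ball (by linarith [D.up a, D.pos, C.r_pos a])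

theorem LimV_bdd (h : VSeq C U π Φ) (γ : Γ) (a : C.I) :
    ∃ B : ℝ, 0 ≤ B ∧ ∀ z ∈ D.Q a, ∀ J, ‖LimV D U Φ γ a z (eJ J)‖ ≤ B := by
  have h1 : ∀ J : Fin p → Fin n, ∃ B, ∀ z ∈ D.Q a, ‖LimV D U Φ γ a z (eJ J)‖ ≤ B := by
    intro J
    obtain ⟨B, hB⟩ := (h.fseq D γ a (eJ J)).vb D.mol le_rfl
    refine ⟨B, fun z hz => ?_⟩
    rw [LimV_apply D h γ a hz]
    exact norm_mk_le fun k => hB.bd k z (ball_subset_closedBall hz)
  choose B hB using h1
  refine ⟨∑ J, |B J|, Finset.sum_nonneg fun _ _ => abs_nonneg _, fun z hz J => ?_⟩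
  exact ((hB J z hz).trans (le_abs_self _)).trans
    (Finset.single_le_sum (f := fun J => |B J|) (fun _ _ => abs_nonneg _) (Finset.mem_univ J))

theorem LimV_cont (h : VSeq C U π Φ) (γ : Γ) (a : C.I) (J : Fin p → Fin n) :
    ContinuousOn (fun z => LimV D U Φ γ a z (eJ J)) (D.Q a) := fun z hz => by
  have h1 := (LimV_analyticAt D h γ a hz).continuousAt
  have h2 : ContinuousAt (fun z => LimV D U Φ γ a z (eJ J)) z :=
    ((ContinuousAlternatingMap.apply ℂ (Cm n) (UP H U) (eJ J)).continuous.continuousAt).comp h1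
  exact h2.continuousWithinAt

theorem LimV_int (h : VSeq C U π Φ) (γ : Γ) (a : C.I) {Ψ : Cm n → ℂ}
    (hΨ : ContinuousOn Ψ (C.Ω a)) (J J' : Fin p → Fin n) :
    IntegrableOn (fun z => Ψ z * inner ℂ (LimV D U Φ γ a z (eJ J)) (LimV D U Φ γ a z (eJ J')))
      (D.Q a) := by
  obtain ⟨B, hB0, hB⟩ := LimV_bdd D h γ a
  obtain ⟨M, hM⟩ := (isCompact_closedBall (C.c a) (D.ρ a)).exists_bound_of_continuousOn
    (hΨ.mono (Q_closed_sub' D a))
  have hcont : ContinuousOn (fun z => Ψ z *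
      inner ℂ (LimV D U Φ γ a z (eJ J)) (LimV D U Φ γ a z (eJ J'))) (D.Q a) :=
    (hΨ.mono (Q_sub_Ω D a)).mul ((LimV_cont D h γ a J).inner (LimV_cont D h γ a J'))
  have hfin : IsFiniteMeasure (volume.restrict (D.Q a)) :=
    ⟨by rw [Measure.restrict_apply_univ]; exact measure_ball_lt_top⟩
  refine Integrable.of_bound (C := M * (B * B))
    (hcont.aestronglyMeasurable (D.Q_open a).measurableSet) ?_
  filter_upwards [ae_restrict_mem (D.Q_open a).measurableSet] with z hz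
  rw [norm_mul]
  have h1 := hM z (ball_subset_closedBall hz)
  refine mul_le_mul h1 ?_ (norm_nonneg _) ((norm_nonneg _).trans h1)
  refine (norm_inner_le_norm _ _).trans ?_
  exact mul_le_mul (hB z hz J) (hB z hz J') (norm_nonneg _) hB0

/-- convergence of the densities -/
theorem lim_pieceV (hT : VSeq C U π Φ) (a : C.I) {φ : Cm n → ℝ}
    (hφ : ContinuousOn φ (C.Ω a)) :
    Tendsto (fun k => ∫ z in D.Q a, φ z * dnV K (Φ k) a z) U
      (𝓝 (∫ z in D.Q a, φ z * rhoV K D U Φ a z)) := by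
  have hsub := Q_closed_sub' D a
  have hφ' : ContinuousOn (fun z => (φ z : ℂ)) (C.Ω a) :=
    Complex.continuous_ofReal.comp_continuousOn hφ
  set m : ℂ := ((p.factorial : ℂ))⁻¹ with hm
  set Ψ : (Fin p → Fin n) → (Fin p → Fin n) → Cm n → ℂ := fun J J' z =>
    m * ((φ z : ℂ) * ∏ i, (K.w a z)⁻¹ (J i) (J' i)) with hΨ
  have hΨc : ∀ J J', ContinuousOn (Ψ J J') (C.Ω a) := fun J J' =>
    continuousOn_const.mul (hφ'.mul (prod_cont K a J J'))
  have h1 := tendsto_finsetSum (Finset.univ : Finset (Fin p → Fin n)) fun J _ =>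
    tendsto_finsetSum (Finset.univ : Finset (Fin p → Fin n)) fun J' _ =>
      LimV_quad D hT 1 a ((hΨc J J').mono hsub) (eJ J) (eJ J')
  have h2 := (Complex.continuous_re.tendsto _).comp h1
  have hQm : MeasurableSet (D.Q a) := (D.Q_open a).measurableSet
  have halg : ∀ (z : Cm n) (B : (Fin p → Fin n) → (Fin p → Fin n) → ℂ),
      ∑ J, ∑ J', Ψ J J' z * B J J' = (φ z : ℂ) * pr ((K.w a z)⁻¹) B := by
    intro z B
    rw [pr, ← hm, Finset.mul_sum, Finset.mul_sum]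
    refine Finset.sum_congr rfl fun J _ => ?_
    rw [Finset.mul_sum, Finset.mul_sum]
    refine Finset.sum_congr rfl fun J' _ => ?_
    simp only [hΨ]
    ring
  have key : ∀ (E : Type) [NormedAddCommGroup E] [InnerProductSpace ℂ E]
      (s : (Fin p → Fin n) → Cm n → E),
      (∀ J J', IntegrableOn (fun z => Ψ J J' z * inner ℂ (s J z) (s J' z)) (D.Q a)) →
      (∑ J, ∑ J', ∫ z in D.Q a, Ψ J J' z * inner ℂ (s J z) (s J' z)).re =
        ∫ z in D.Q a, φ z * (pr ((K.w a z)⁻¹) fun J J' => inner ℂ (s J z) (s J' z)).re := by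
    intro E _ _ s hi
    have e2 : (∑ J, ∑ J', ∫ z in D.Q a, Ψ J J' z * inner ℂ (s J z) (s J' z)) =
        ∫ z in D.Q a, ∑ J, ∑ J', Ψ J J' z * inner ℂ (s J z) (s J' z) := by
      rw [integral_finsetSum _ fun J _ => integrable_finsetSum _ fun J' _ => hi J J']
      refine Finset.sum_congr rfl fun J _ => ?_
      rw [integral_finsetSum _ fun J' _ => hi J J']
    have hi2 : IntegrableOn (fun z => ∑ J, ∑ J', Ψ J J' z * inner ℂ (s J z) (s J' z)) (D.Q a) :=
      integrable_finsetSum _ fun J _ => integrable_finsetSum _ fun J' _ => hi J J'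
    rw [e2, ← RCLike.re_eq_complex_re, ← integral_re hi2]
    refine setIntegral_congr_fun hQm fun z _ => ?_
    simp only [halg]
    rw [RCLike.re_eq_complex_re, Complex.re_ofReal_mul]
  have e1 := key (UP H U) (fun J z => LimV D U Φ 1 a z (eJ J))
    (fun J J' => LimV_int D hT 1 a (hΨc J J') J J')
  rw [e1] at h2
  refine h2.congr fun k => ?_
  simp only [Function.comp_apply]
  have hsc : ∀ J, ContinuousOn (fun z => Φ k 1 a z (eJ J)) (C.Ω a) := fun J z hz =>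
    ((hT.form k).smooth 1 a (eJ J) z hz).continuousAt.continuousWithinAt
  rw [key (H k) (fun J z => Φ k 1 a z (eJ J)) fun J J' => by
    have h3 : ContinuousOn (fun z => Ψ J J' z * inner ℂ (Φ k 1 a z (eJ J)) (Φ k 1 a z (eJ J')))
        (C.Ω a) := (hΨc J J').mul ((hsc J).inner (hsc J'))
    exact ((h3.mono hsub).integrableOn_compact (isCompact_closedBall _ _)).mono_set
      ball_subset_closedBall]
  refine setIntegral_congr_fun hQm fun z _ => ?_
  simp only [dnV_eq]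

theorem nSV_equiv (h : VSeq C U π Φ) (G : Matrix (Fin n) (Fin n) ℂ)
    (g γ : Γ) (a : C.I) {z : Cm n} (hz : z ∈ D.Q a) :
    nS G (LimV D U Φ (g * γ) a z) = nS G (LimV D U Φ γ a z) := by
  simp only [nS, LimV_equiv D h g γ a hz, LinearIsometryEquiv.inner_map_map]

theorem nSV_one (h : VSeq C U π Φ) (G : Matrix (Fin n) (Fin n) ℂ)
    (γ : Γ) (a : C.I) {z : Cm n} (hz : z ∈ D.Q a) :
    nS G (LimV D U Φ γ a z) = nS G (LimV D U Φ 1 a z) := by
  have h1 := nSV_equiv D h G γ 1 a hz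
  rwa [mul_one] at h1

theorem rhoV_nonneg (a : C.I) {z : Cm n} (hz : z ∈ D.Q a) : 0 ≤ rhoV K D U Φ a z := by
  obtain ⟨R, T, hR, -, -⟩ := exists_R (w_pos K (Q_sub_Ω D a hz))
  rw [rhoV, hR]
  exact nS_nonneg R _

theorem rhoV_cont (hT : VSeq C U π Φ) (a : C.I) :
    ContinuousOn (rhoV K D U Φ a) (D.Q a) := by
  unfold rhoV nS pr
  refine Complex.continuous_re.comp_continuousOn (continuousOn_const.mul ?_)
  refine continuousOn_finsetSum _ fun J _ => continuousOn_finsetSum _ fun J' _ => ?_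
  exact ((prod_cont K a J J').mono (Q_sub_Ω D a)).mul
    ((LimV_cont D hT 1 a J).inner (LimV_cont D hT 1 a J'))

theorem rhoV_compat (hT : VSeq C U π Φ) (a b : C.I) (z : Cm n) (hO : z ∈ C.O a b)
    (hz : z ∈ D.Q a) (hz' : C.T a b z ∈ D.Q b) :
    rhoV K D U Φ a z = rhoV K D U Φ b (C.T a b z) := by
  obtain ⟨R, T, hR, -, -⟩ := exists_R (w_pos K (Q_sub_Ω D a hz))
  have h1 := nS_comp R (jac C a b z) (fderiv ℂ (C.T a b) z)
    (fun v => (jac_mulVec hO v).symm) (LimV D U Φ (1 * C.κ a b z) b (C.T a b z))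
  rw [← hR, inv_K K hO, ← LimV_change D hT 1 a b hO hz hz'] at h1
  rw [rhoV, h1, nSV_one D hT _ _ b hz', rhoV]

theorem LimV_le (hT : VSeq C U π Φ) (K : KM C) (γ : Γ) (a : C.I) {z : Cm n}
    (hz : z ∈ D.Q a) :
    ‖LimV D U Φ γ a z‖ ^ 2 ≤
      ((n : ℝ) ^ p * (n : ℝ) ^ p * (K.Lam ^ p * (p.factorial : ℝ))) * rhoV K D U Φ a z := by
  have hz' := Q_sub_Ω D a hz
  obtain ⟨R, T, hR, hTR, hd⟩ := exists_R (w_pos K hz')
  have h1 := norm_sq_le hTR (fun j => (hd j).trans_le (diag_le K hz' j)) (LimV D U Φ γ a z)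
  rw [← hR, nSV_one D hT _ _ a hz] at h1
  exact h1

theorem lim_intV (hT : VSeq C U π Φ) {F : Γ → C.I → Cm n → Cm q} (hF : HolF C F)
    (hPD : ∀ a, P.K a ⊆ D.Q a) {ψ : Cm q → ℝ} (hψ : Continuous ψ) :
    Tendsto (fun k => BInt P K (fun a z => ψ (F 1 a z) * dnV K (Φ k) a z)) U
      (𝓝 (∑ a, ∫ z in D.Q a, P.χ a a z * (rhoV K D U Φ a z * ψ (F 1 a z)) *
        vol (K.w a) z)) := by
  have h2 := tendsto_finsetSum (Finset.univ : Finset C.I) fun a _ =>
    lim_pieceV (K := K) D hT a (φ := fun z => P.χ a a z * ψ (F 1 a z) * vol (K.w a) z)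
      (((chi_cont P a a).mul (hψ.comp_continuousOn (hF.hol 1 a).continuousOn)).mul (vol_cont K a))
  have e2 : (∑ a, ∫ z in D.Q a, P.χ a a z * (rhoV K D U Φ a z * ψ (F 1 a z)) *
        vol (K.w a) z) =
      ∑ a, ∫ z in D.Q a, P.χ a a z * ψ (F 1 a z) * vol (K.w a) z * rhoV K D U Φ a z := by
    refine Finset.sum_congr rfl fun a _ => ?_
    refine setIntegral_congr_fun (D.Q_open a).measurableSet fun z _ => ?_
    ring
  rw [e2]
  refine h2.congr fun k => ?_
  unfold BInt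
  refine Finset.sum_congr rfl fun a _ => ?_
  symm
  have e3 : ∫ z in C.V a, P.χ a a z * (ψ (F 1 a z) * dnV K (Φ k) a z) * vol (K.w a) z =
      ∫ z in C.V a, P.χ a a z * ψ (F 1 a z) * vol (K.w a) z * dnV K (Φ k) a z := by
    refine setIntegral_congr_fun measurableSet_ball fun z _ => ?_
    ring
  rw [e3]
  refine setIntegral_eq_of_subset_of_forall_sdiff_eq_zero (t := C.V a) (s := D.Q a)
    measurableSet_ball (D.Q_sub a) fun z hz => ?_
  by_cases h3 : P.χ a a z = 0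
  · rw [h3, zero_mul, zero_mul, zero_mul]
  · have h4 := P.supp a a z (H639.V.V_sub_Ω C a hz.1) h3
    rw [C.T_self a z h4.1] at h4
    exact absurd (hPD a h4.2) hz.2

end

/-- **push-forward** of the limit of Hilbert valued forms -/
theorem pushV : PushVStmt := by
  intro n q p Γ _ C P K F c hF heq hfin hco H _ _ _ U π Φ hT hfl D hPD
  refine flatI_push (P := P) (K := K)
    (I := fun k ψ => BInt P K (fun a z => ψ (F 1 a z) * dnV K (Φ k) a z)) hF heq hfin
    (fun φ hφ hper v => hfl φ hφ hper v) D.Q_open D.W_sub D.Q_sub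
    (fun a z hz h3 => ?_) (fun a => rhoV_cont D hT a) (fun a z hz => rhoV_nonneg D a hz)
    (fun a b z hO hz hz' => rhoV_compat D hT a b z hO hz hz') (fun ψ hψ _ => ?_)
    (fun γ a z hz => LimV_le D hT K γ a hz)
  · have h4 := P.supp a a z (H639.V.V_sub_Ω C a hz) h3
    rw [C.T_self a z h4.1] at h4
    exact hPD a h4.2
  · exact lim_intV D hT hF hPD hψ

end Vale.Agent.P284.H15.V
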