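import Vale.Agent.P284.H15.FL.Lim

/-!
# P284 (helper15), T3: push-forward of limit densities, generic form
-/

open scoped Manifold ContDiff Topology Pointwise ComplexConjugate ComplexOrder Matrix ENNReal
open Filter Set Metric MeasureTheory

noncomputable section

namespace Vale.Agent.P284.H15.V

open Vale.Agent.P272.K Vale.Agent.P272.K.C2 Vale.Agent.P284.H248 Vale.Agent.P284.H894
  Vale.Agent.P284.H894.V Vale.Agent.P284.H639.V Vale.Agent.P284.H66 Vale.Agent.P284.H913.V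
  Vale.Agent.P284.H66.S7 Vale.Agent.P284.H661 Vale.Agent.P284.H402.A Vale.Agent.P284.H650
  Vale.Agent.P284.H15.FL

section
variable {n q : ℕ} {Γ : Type} [Group Γ] {C : Coc n Γ} {P : PU C} {K : KM C}
  {F : Γ → C.I → Cm n → Cm q} {U : Filter ℕ} {I : ℕ → (Cm q → ℝ) → ℝ}

theorem flatI_lim' [U.NeBot] (hF : HolF C F) {c : Γ → Cm q}
    (heq : ∀ g γ a, ∀ z ∈ C.Ω a, F (g * γ) a z = F γ a z + c g)
    (hfin : ∀ R : ℝ, {v : Cm q | (∃ g, c g = v) ∧ ‖v‖ ≤ R}.Finite)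
    (hI : ∀ φ : Cm q → ℝ, ContDiff ℝ ∞ φ → (∀ g t, φ (t + c g) = φ t) → ∀ v : Cm q,
      Tendsto (fun k => I k fun t => fderiv ℝ φ t v) U (𝓝 0))
    {ρ : C.I → Cm n → ℝ} (hbd : BD C ρ) (hnn : ∀ a, ∀ z ∈ C.Ω a, 0 ≤ ρ a z)
    (hlim : ∀ ψ : Cm q → ℝ, Continuous ψ → (∀ g t, ψ (t + c g) = ψ t) →
      Tendsto (fun k => I k ψ) U (𝓝 (BInt P K (fun a z => ρ a z * ψ (F 1 a z))))) :
    ∃ A : ℝ≥0∞, A ≠ ⊤ ∧ ∀ (g : Γ) (a : C.I) (s : Cm q → ℝ≥0∞), Measurable s →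
      ∫⁻ z in C.V a, s (F g a z) * ENNReal.ofReal (ρ a z * vol (K.w a) z) ≤ A * ∫⁻ y, s y := by
  let D : Dat C (0 : Matrix (Fin q) (Fin q) ℂ) (0 : Matrix (Fin q) (Fin q) ℂ) :=
    { F := F, c := c, f := fun _ => 0, hol := hF.hol, compat := hF.compat, equi := heq
      co := fun g' g => by simp [Vale.Agent.P284.H66.S7.BB] }
  obtain ⟨A, hA, h⟩ := haar_gen D P K hfin hbd hnn (fun φ hφ hper v => by
    have h1 := hI φ hφ hper v
    have h2 : Continuous fun t => fderiv ℝ φ t v :=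
      (hφ.continuous_fderiv (by simp)).clm_apply continuous_const
    have h3 : ∀ g t, fderiv ℝ φ (t + c g) v = fderiv ℝ φ t v := by
      intro g t
      have h4 : (fun t => φ (t + c g)) = φ := funext fun t => hper g t
      conv_rhs => rw [← h4]
      rw [fderiv_comp_add_right]
    exact tendsto_nhds_unique (hlim _ h2 h3) h1)
  refine ⟨A, hA, fun g a s hs => ?_⟩
  have h1 := h a (fun y => s (y + c g)) (hs.comp (measurable_add_const _))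
  rw [lintegral_add_right_eq_self (μ := (volume : Measure (Cm q))) s (c g)] at h1
  refine le_trans (le_of_eq ?_) h1
  refine setLIntegral_congr_fun measurableSet_ball fun z hz => ?_
  have e1 : F g a z = D.F 1 a z + c g := by
    have := heq g 1 a z (V_sub_Ω C a hz)
    rwa [mul_one] at this
  simp only [e1]

/-- the push-forward for a limit density given on the sets `Q a` -/
theorem flatI_limQ [U.NeBot] (hF : HolF C F) {c : Γ → Cm q}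
    (heq : ∀ g γ a, ∀ z ∈ C.Ω a, F (g * γ) a z = F γ a z + c g)
    (hfin : ∀ R : ℝ, {v : Cm q | (∃ g, c g = v) ∧ ‖v‖ ≤ R}.Finite)
    (hI : ∀ φ : Cm q → ℝ, ContDiff ℝ ∞ φ → (∀ g t, φ (t + c g) = φ t) → ∀ v : Cm q,
      Tendsto (fun k => I k fun t => fderiv ℝ φ t v) U (𝓝 0))
    {Q : C.I → Set (Cm n)} (hQo : ∀ a, IsOpen (Q a))
    (hWQ : ∀ a, C.W a ⊆ Q a) (hQV : ∀ a, Q a ⊆ C.V a)
    (hχ : ∀ a, ∀ z ∈ C.V a, P.χ a a z ≠ 0 → z ∈ Q a) {ρ : C.I → Cm n → ℝ}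
    (hc : ∀ a, ContinuousOn (ρ a) (Q a)) (h0 : ∀ a, ∀ z ∈ Q a, 0 ≤ ρ a z)
    (hcomp : ∀ a b, ∀ z ∈ C.O a b, z ∈ Q a → C.T a b z ∈ Q b → ρ a z = ρ b (C.T a b z))
    (hlim : ∀ ψ : Cm q → ℝ, Continuous ψ → (∀ g t, ψ (t + c g) = ψ t) →
      Tendsto (fun k => I k ψ) U
        (𝓝 (∑ a, ∫ z in Q a, P.χ a a z * (ρ a z * ψ (F 1 a z)) * vol (K.w a) z))) :
    ∃ A : ℝ≥0∞, A ≠ ⊤ ∧ ∀ (g : Γ) (a : C.I) (s : Cm q → ℝ≥0∞), Measurable s →
      ∫⁻ z in Q a, s (F g a z) * ENNReal.ofReal (ρ a z * vol (K.w a) z) ≤ A * ∫⁻ y, s y := by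
  obtain ⟨ρ', hbd, hnn, he⟩ := exists_BD hQo hWQ (fun a => (hQV a).trans (V_sub_Ω C a)) hc h0 hcomp
  obtain ⟨A, hA, h⟩ := flatI_lim' (P := P) (K := K) hF heq hfin hI hbd hnn fun ψ hψ hper => by
    have h1 : BInt P K (fun a z => ρ' a z * ψ (F 1 a z)) =
        ∑ a, ∫ z in Q a, P.χ a a z * (ρ a z * ψ (F 1 a z)) * vol (K.w a) z := by
      unfold BInt
      refine Finset.sum_congr rfl fun a _ => ?_
      rw [setIntegral_eq_of_subset_of_forall_sdiff_eq_zero (isOpen_V C a).measurableSet (hQV a)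
        fun z hz => ?_]
      · refine setIntegral_congr_fun (hQo a).measurableSet fun z hz => ?_
        simp only [he a z hz]
      · by_cases h2 : P.χ a a z = 0
        · rw [h2, zero_mul, zero_mul]
        · exact absurd (hχ a z hz.1 h2) hz.2
    rw [h1]
    exact hlim ψ hψ hper
  refine ⟨A, hA, fun g a s hs => ?_⟩
  refine le_trans ?_ (h g a s hs)
  calc ∫⁻ z in Q a, s (F g a z) * ENNReal.ofReal (ρ a z * vol (K.w a) z)
      = ∫⁻ z in Q a, s (F g a z) * ENNReal.ofReal (ρ' a z * vol (K.w a) z) := by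
        refine setLIntegral_congr_fun (hQo a).measurableSet fun z hz => ?_
        simp only [he a z hz]
    _ ≤ _ := lintegral_mono_set (hQV a)

/-- conclusion for the norm of a form -/
theorem flatI_push [U.NeBot] (hF : HolF C F) {c : Γ → Cm q}
    (heq : ∀ g γ a, ∀ z ∈ C.Ω a, F (g * γ) a z = F γ a z + c g)
    (hfin : ∀ R : ℝ, {v : Cm q | (∃ g, c g = v) ∧ ‖v‖ ≤ R}.Finite)
    (hI : ∀ φ : Cm q → ℝ, ContDiff ℝ ∞ φ → (∀ g t, φ (t + c g) = φ t) → ∀ v : Cm q,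
      Tendsto (fun k => I k fun t => fderiv ℝ φ t v) U (𝓝 0))
    {Q : C.I → Set (Cm n)} (hQo : ∀ a, IsOpen (Q a))
    (hWQ : ∀ a, C.W a ⊆ Q a) (hQV : ∀ a, Q a ⊆ C.V a)
    (hχ : ∀ a, ∀ z ∈ C.V a, P.χ a a z ≠ 0 → z ∈ Q a) {ρ : C.I → Cm n → ℝ}
    (hc : ∀ a, ContinuousOn (ρ a) (Q a)) (h0 : ∀ a, ∀ z ∈ Q a, 0 ≤ ρ a z)
    (hcomp : ∀ a b, ∀ z ∈ C.O a b, z ∈ Q a → C.T a b z ∈ Q b → ρ a z = ρ b (C.T a b z))
    (hlim : ∀ ψ : Cm q → ℝ, Continuous ψ → (∀ g t, ψ (t + c g) = ψ t) →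
      Tendsto (fun k => I k ψ) U
        (𝓝 (∑ a, ∫ z in Q a, P.χ a a z * (ρ a z * ψ (F 1 a z)) * vol (K.w a) z)))
    {W : Type} [NormedAddCommGroup W] {S : Γ → C.I → Cm n → W} {B : ℝ}
    (hSρ : ∀ γ a, ∀ z ∈ Q a, ‖S γ a z‖ ^ 2 ≤ B * ρ a z) :
    ∃ A : ℝ≥0∞, A ≠ ⊤ ∧ ∀ (g : Γ) (a : C.I) (s : Cm q → ℝ≥0∞), Measurable s →
      ∫⁻ z in Q a, s (F g a z) * ‖S g a z‖ₑ ^ 2 ≤ A * ∫⁻ y, s y := by
  obtain ⟨A, hA, h⟩ := flatI_limQ hF heq hfin hI hQo hWQ hQV hχ hc h0 hcomp hlim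
  refine ⟨ENNReal.ofReal (|B| / K.lam) * A, ENNReal.mul_ne_top ENNReal.ofReal_ne_top hA,
    fun g a s hs => ?_⟩
  have h1 := mul_le_mul' (le_refl (ENNReal.ofReal (|B| / K.lam))) (h g a s hs)
  rw [← mul_assoc] at h1
  refine le_trans ?_ h1
  rw [← lintegral_const_mul' _ _ ENNReal.ofReal_ne_top]
  refine setLIntegral_mono' (hQo a).measurableSet fun z hz => ?_
  rw [mul_left_comm]
  refine mul_le_mul' le_rfl ?_
  rw [← ENNReal.ofReal_mul (by have := K.lam_pos; positivity)]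
  have e1 : ‖S g a z‖ₑ ^ 2 = ENNReal.ofReal (‖S g a z‖ ^ 2) := by
    rw [← ofReal_norm, ENNReal.ofReal_pow (norm_nonneg _)]
  rw [e1]
  refine ENNReal.ofReal_le_ofReal ?_
  have h2 := hSρ g a z hz
  have h3 := K.vol_low a z (V_sub_Ω C a (hQV a hz))
  have h4 := h0 a z hz
  have hl := K.lam_pos
  have h5 : B * ρ a z ≤ |B| * ρ a z := mul_le_mul_of_nonneg_right (le_abs_self B) h4
  have h6 : |B| * ρ a z ≤ |B| / K.lam * (ρ a z * vol (K.w a) z) := by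
    have h7 : |B| / K.lam * (ρ a z * vol (K.w a) z) = |B| * ρ a z * (vol (K.w a) z / K.lam) := by
      field_simp
    rw [h7]
    have h8 : 1 ≤ vol (K.w a) z / K.lam := by rw [le_div_iff₀ hl]; linarith
    exact le_mul_of_one_le_right (by positivity) h8
  linarith

end

end Vale.Agent.P284.H15.V
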